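import Vale.Agent.P122.C.Defs2

/-! # P106 / W : the discrete multiscale object for the radially truncated cone in `R^(3+1)` (helper117)

Space-time points `(z0, z', t)`, `z' ∈ R²`.  Light ray of slope `s ∈ R²` : `z'(t) = y + t s`, `z0(t) = z0(0) + t |s|²/2`
(phase `ρ (z0 - z'·s + t |s|²/2)`).  Adapted coordinate `ζ_s(z) = z0 - z'·s + t |s|²/2`, constant along the rays of slope `s`.

`K` levels, `n` binary digits per level, `R = 2^(2 K n)`, thickness `2^(h n)` (`h ≥ 2` digits blocks, `h ≤ δ K`).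
A plank of level `i` : slope `s = τ / 2^(i n)`, `τ ∈ [0, 2^(i n))²`, radius `2^(i n)` in `z'`, thickness `2^(h n)` in `ζ_s`, times
`[T, T+1) 2^(2 i n)`; its axis is at the position `z' = 2^(i n) o` at the time `T 2^(2 i n)` and `ζ_s ∈ [w, w+1) 2^(h n)`.

`Nd = C2.Nd × ℤ` : the pair (tube of the tree of `P122`, `w`).  `S.sg n` is the piece of radius `2^((i+1) n)`, length `2^(2 i n)`,
same thickness.  On this piece `ζ_{s'} - ζ_s = -(z' - t s)·δ + t |δ|²/2` (`δ = s' - s`) varies by `≤ 2^n ≤ 2^(h n)`; its value at the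
corner of the piece, divided by `2^(h n)`, is `tl`, an explicit function of integers (no dependence on the level). -/

set_option autoImplicit false

namespace Vale.Agent.P106.W

open Vale.Agent.P122.C2 (Z2 par kids Cap fw fn)

/-- the slope of the cap `τ` of level `i` -/
noncomputable def s0 (n : ℕ) : ℕ → Z2 → Fin 2 → ℝ := fun i τ k => (τ k : ℝ) / 2 ^ (i * n)

/-- node: tube `b` of the tree of `P122` and index `w` of the adapted coordinate -/
@[ext] structure Nd where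
  b : Vale.Agent.P122.C2.Nd
  w : ℤ
deriving DecidableEq

/-- the piece (radius of the next level) around the plank -/
noncomputable def Nd.sg (n : ℕ) (S : Nd) : Nd := ⟨S.b.sg n, S.w⟩

/-- change of the adapted coordinate from the cap `σ.b.τ` to its child `τ'` at the corner of the piece `σ` of level `i`
(`σ.b.o` in units `2^((i+1) n)`, `σ.b.T` in units `2^(2 i n)`), in units `2^(h n)` -/
noncomputable def tl (n h : ℕ) (σ : Vale.Agent.P122.C2.Nd) (τ' : Z2) : ℝ :=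
  (∑ k, (-((σ.o k : ℝ) - (σ.T : ℝ) * (σ.τ k : ℝ) / 2 ^ n) * ((τ' k : ℝ) - 2 ^ n * (σ.τ k : ℝ)) +
    (σ.T : ℝ) * ((τ' k : ℝ) - 2 ^ n * (σ.τ k : ℝ)) ^ 2 / 2 ^ (2 * n + 1))) / 2 ^ (h * n)

/-- the plank of level `i + 1` and cap `τ'` through the piece `σ` of level `i` -/
noncomputable def Nd.ch (n h i : ℕ) (σ : Nd) (τ' : Z2) : Nd :=
  ⟨σ.b.ch (s0 n) n i τ', ⌊(σ.w : ℝ) + tl n h σ.b τ'⌋⟩

/-- multiscale amplitudes on the radially truncated cone. `A i S G` = amplitude on the plank `S` (level `i`) of the sum of the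
pieces of the caps in `G` (children of the cap of `S`), `a i S` = amplitude of the piece of the cap of `S`. -/
structure Amp (C : ℝ) (n h K : ℕ) where
  A : ℕ → Nd → Finset Z2 → ℝ
  a : ℕ → Nd → ℝ
  a0 : ∀ i S, 0 ≤ a i S
  A0 : ∀ i S G, 0 ≤ A i S G
  kid : ∀ i S, i < K → Cap n i S.b.τ → a i S ≤ A i S (kids n S.b.τ)
  tri : ∀ i S G G', i < K → Disjoint G G' → A i S (G ∪ G') ≤ A i S G + A i S G'
  /-- [L] -/
  L1 : ∀ i S G, i < K → Cap n i S.b.τ → G ⊆ kids n S.b.τ → A i S G ≤ C * ∑ τ' ∈ G, a (i + 1) ((S.sg n).ch n h i τ')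
  /-- [B1] local `L²` on discs -/
  B1 : ∀ i σ G, i < K → Cap n i σ.b.τ → G ⊆ kids n σ.b.τ → ∀ U : Finset Nd, (∀ S ∈ U, S.sg n = σ) →
    ∑ S ∈ U, A i S G ^ 2 ≤ C * 2 ^ (2 * n) * ∑ τ' ∈ G, a (i + 1) (σ.ch n h i τ') ^ 2
  /-- [B2] local `L²` along the direction `θ` on strips: the columns are the caps with the same coordinate along `θ` -/
  B2 : ∀ i θ, 1 ≤ i → i < K → ∀ (σ : Nd) (G : Finset Z2) (k : ℕ), Cap n i σ.b.τ → G ⊆ kids n σ.b.τ →
      (∀ r : ℝ, (G.filter fun τ' => |fw θ (fun j => (τ' j : ℝ)) - r| ≤ 1).card ≤ k) →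
      ∀ (U : Finset Nd) (r : ℝ), (∀ S ∈ U, S.sg n = σ ∧ |fn θ (fun j => (S.b.o j : ℝ)) - r| ≤ 1) →
        ∑ S ∈ U, A i S G ^ 2 ≤ C * 2 ^ n * k * ∑ τ' ∈ G, a (i + 1) (σ.ch n h i τ') ^ 2
  /-- support -/
  supp : ∀ S, a K S ≠ 0 → S.b.T = 0 ∧ Cap n K S.b.τ ∧ (∀ k, |(S.b.o k : ℝ)| ≤ C * 2 ^ (K * n)) ∧
    |(S.w : ℝ)| * 2 ^ (h * n) ≤ C * 2 ^ (2 * K * n)

/-- the ray of the plank `S` of level `c`, in coordinates divided by `2^(2 c n)`, time measured from the beginning of its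
time block: position `y` -/
noncomputable def ry (n c : ℕ) (S : Nd) : Fin 2 → ℝ := fun j => (S.b.o j : ℝ) / 2 ^ (c * n)

/-- the value of the adapted coordinate `z0 - z'·s + t |s|²/2` of the plank `S` of level `c`, divided by `2^(2 c n)`, time `t`
measured from the beginning of its time block -/
noncomputable def rz (n h c : ℕ) (S : Nd) : ℝ :=
  (S.w : ℝ) * 2 ^ (h * n) / 2 ^ (2 * c * n) - (S.b.T : ℝ) * (∑ k, s0 n c S.b.τ k ^ 2) / 2

/-- conformal boxes: Lorentz ball of size `u2` around the ray `(p, v, ω)` cut by the conformal slab `|G| ≤ u1`,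
`G = N + κ ζ + α (2 t ζ - |z'|²)` (`N` = coordinate normal to the direction `θ`, everything centred at the ray `(p, v, ω)` and in
its adapted coordinates), which is affine along all light rays -/
structure Cbx where
  θ : ℝ
  u1 : ℝ
  u2 : ℝ
  κ : ℝ
  α : ℝ
  p : Fin 2 → ℝ
  v : Fin 2 → ℝ
  ω : ℝ

/-- the ray with position `y`, slope `s`, adapted coordinate `z` (at the time `0`: `z0 = z + y·s`), known up to the thickness `H`,
is in the box: distances to the ray `(p, v, ω)`, value of `G` at the time `0`, increment of `G` from the time `0` to the time `1` -/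
def Cbx.In (B : Cbx) (H : ℝ) (y s : Fin 2 → ℝ) (z : ℝ) : Prop :=
  (∀ k, |y k - B.p k| ≤ B.u2) ∧ (∀ k, |s k - B.v k| ≤ B.u2) ∧ |z + ∑ k, y k * (s k - B.v k) - B.ω| ≤ max (B.u2 ^ 2) H ∧
  |fn B.θ (y - B.p) + B.κ * (z + ∑ k, y k * (s k - B.v k) - B.ω) - B.α * ∑ k, (y k - B.p k) ^ 2| ≤ B.u1 ∧
  |fn B.θ (s - B.v) + B.κ * (∑ k, (s k - B.v k) ^ 2) / 2 + 2 * B.α * (z + ∑ k, B.p k * (s k - B.v k) - B.ω)| ≤ B.u1

/-- admissible boxes for planks of radius `r = 2^(-c n)` (normalised) and thickness `H = 2^(h n) / 2^(2 c n)` (normalised):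
widths `r ≤ u1 ≤ u2 ≤ 1`, frame bounded by `c` in units of the cap `u2`, and the box contains whole planks (`|κ| H ≤ u1`,
`|α| H ≤ u1`). The full class is `c = 1/8`; `KTop` uses `c = 1/(8 C)` (`W/Split.lean`: this is equivalent). -/
structure Cbx.ok (c : ℝ) (B : Cbx) (r H : ℝ) : Prop where
  r1 : r ≤ B.u1
  u12 : B.u1 ≤ B.u2
  u2 : B.u2 ≤ 1
  α2 : |B.α| * B.u2 ≤ c
  κ2 : |B.κ| * B.u2 ≤ c
  αH : |B.α| * H ≤ B.u1
  κH : |B.κ| * H ≤ B.u1

/-- volume of the box divided by the volume of a plank -/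
noncomputable def Cbx.vol (B : Cbx) (r H : ℝ) : ℝ := B.u1 * B.u2 / r ^ 2 * max 1 (B.u2 ^ 2 / H)

/-- the thickness of the planks divided by the length `2^(2 c n)` -/
noncomputable def hh (n h c : ℕ) : ℝ := 2 ^ (h * n) / 2 ^ (2 * c * n)

/-- the plank `S` of level `c` is in the box `B` -/
def InB (n h c : ℕ) (B : Cbx) (S : Nd) : Prop := B.In (hh n h c) (ry n c S) (s0 n c S.b.τ) (rz n h c S)

/-- Katz-Tao condition at the top level, conformal boxes (with `|α| u2, |κ| u2 ≤ 1/(8 C)`) -/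
def KTop {C : ℝ} {n h K : ℕ} (F : Amp C n h K) (Λ : ℝ) : Prop :=
  ∀ (B : Cbx) (U : Finset Nd), B.ok (1 / (8 * C)) ((1 / 2 : ℝ) ^ (K * n)) (hh n h K) → (∀ S ∈ U, InB n h K B S) →
    ∑ S ∈ U, F.a K S ^ 2 ≤ Λ * B.vol ((1 / 2 : ℝ) ^ (K * n)) (hh n h K)

/-- [CORE] the multiscale theorem with price `N` (exponent `2 + 2/N`; `N = 2` is the full theorem). The constant `C` may
depend on `K, h`. -/
def StCORE (N : ℝ) : Prop := ∀ δ : ℝ, 0 < δ → ∃ K h : ℕ, 1 ≤ K ∧ 2 ≤ h ∧ (h : ℝ) ≤ δ * K ∧ ∀ C : ℝ, 1 ≤ C → ∃ C' : ℝ, 0 ≤ C' ∧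
  ∀ (n : ℕ) (F : Amp C n h K) (Λ Q : ℝ), 0 ≤ Λ → KTop F Λ → (∀ U : Finset Nd, ∑ S ∈ U, F.a K S ^ 2 ≤ Q) →
  ∀ X : Finset Nd, (∀ x ∈ X, x.b.τ = 0 ∧ 0 ≤ x.b.T ∧ x.b.T < 2 ^ (2 * K * n)) →
    ∑ x ∈ X, F.a 0 x ^ (2 + 2 / N) ≤ C' * 2 ^ (δ * (K * n)) * Λ ^ (1 / N) * 2 ^ (4 * K * n) * Q

end Vale.Agent.P106.W
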