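import Vale.Agent.P106.W.Defs

/-! # P106 / W : recentring of the conformal boxes at another ray (helper117)

`Cbx.g0`, `Cbx.g1` : value of `G` at the time `0` and its increment for the ray `(y, q, z)`.
`g0_rec`, `g1_rec` : exact formulas for the coordinates centred at another ray `(p', v', ω')` : the normal becomes
`n' = n + κ (v' - v) - 2 α (p' - p)`, the numbers `κ`, `α` do not change, `G` changes by its values on the new centre.
`Cbx.recenter` : in the class `ok (1/8)` the normal `n'` has length `L ∈ [2/5, 8/5]`. -/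

set_option autoImplicit false

namespace Vale.Agent.P106.W

open Vale.Agent.P122.C2 (Z2 par kids Cap fw fn)

/-- the adapted coordinate of the ray `(y, q, z)` with respect to the centre of the box -/
def Cbx.zz (B : Cbx) (y q : Fin 2 → ℝ) (z : ℝ) : ℝ := z + ∑ k, y k * (q k - B.v k) - B.ω

/-- value of `G` at the time `0` -/
noncomputable def Cbx.g0 (B : Cbx) (y q : Fin 2 → ℝ) (z : ℝ) : ℝ :=
  fn B.θ (y - B.p) + B.κ * (z + ∑ k, y k * (q k - B.v k) - B.ω) - B.α * ∑ k, (y k - B.p k) ^ 2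

/-- increment of `G` -/
noncomputable def Cbx.g1 (B : Cbx) (y q : Fin 2 → ℝ) (z : ℝ) : ℝ :=
  fn B.θ (q - B.v) + B.κ * (∑ k, (q k - B.v k) ^ 2) / 2 + 2 * B.α * (z + ∑ k, B.p k * (q k - B.v k) - B.ω)

theorem Cbx.in_iff (B : Cbx) (H : ℝ) (y q : Fin 2 → ℝ) (z : ℝ) : B.In H y q z ↔
    (∀ k, |y k - B.p k| ≤ B.u2) ∧ (∀ k, |q k - B.v k| ≤ B.u2) ∧ |B.zz y q z| ≤ max (B.u2 ^ 2) H ∧
      |B.g0 y q z| ≤ B.u1 ∧ |B.g1 y q z| ≤ B.u1 := Iff.rfl

/-- the new normal vector -/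
noncomputable def Cbx.nn (B : Cbx) (p' v' : Fin 2 → ℝ) : Fin 2 → ℝ :=
  ![-Real.sin B.θ + B.κ * (v' 0 - B.v 0) - 2 * B.α * (p' 0 - B.p 0),
    Real.cos B.θ + B.κ * (v' 1 - B.v 1) - 2 * B.α * (p' 1 - B.p 1)]

theorem Cbx.g0_rec (B : Cbx) (p' v' y q : Fin 2 → ℝ) (ω' z : ℝ) :
    B.g0 y q z = (∑ k, B.nn p' v' k * (y k - p' k)) + B.κ * (z + ∑ k, y k * (q k - v' k) - ω') -
      B.α * (∑ k, (y k - p' k) ^ 2) + B.g0 p' v' ω' := by
  simp [Cbx.g0, Cbx.nn, fn, Fin.sum_univ_two]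
  ring

theorem Cbx.g1_rec (B : Cbx) (p' v' y q : Fin 2 → ℝ) (ω' z : ℝ) :
    B.g1 y q z = (∑ k, B.nn p' v' k * (q k - v' k)) + B.κ * (∑ k, (q k - v' k) ^ 2) / 2 +
      2 * B.α * (z + ∑ k, p' k * (q k - v' k) - ω') + B.g1 p' v' ω' := by
  simp [Cbx.g1, Cbx.nn, fn, Fin.sum_univ_two]
  ring

theorem Cbx.zz_rec (B : Cbx) (p' v' y q : Fin 2 → ℝ) (ω' z : ℝ) :
    z + ∑ k, y k * (q k - v' k) - ω' = B.zz y q z - B.zz p' v' ω' - ∑ k, (y k - p' k) * (v' k - B.v k) := by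
  simp only [Cbx.zz, Fin.sum_univ_two]
  ring

/-- exact length of the new normal (`G` has constant Lorentz norm on `G = 0`) -/
theorem Cbx.nn_sq (B : Cbx) (p' v' : Fin 2 → ℝ) (ω' : ℝ) :
    B.nn p' v' 0 ^ 2 + B.nn p' v' 1 ^ 2 = 1 + 2 * B.κ * B.g1 p' v' ω' - 4 * B.α * B.g0 p' v' ω' := by
  have h := Real.sin_sq_add_cos_sq B.θ
  simp [Cbx.g0, Cbx.g1, Cbx.nn, fn, Fin.sum_univ_two]
  linear_combination h

theorem exists_angle {x y : ℝ} (h : x ^ 2 + y ^ 2 = 1) : ∃ θ : ℝ, Real.cos θ = x ∧ Real.sin θ = y := by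
  have h1 : ‖(⟨x, y⟩ : ℂ)‖ = 1 := by
    rw [Complex.norm_def, Complex.normSq_mk, Real.sqrt_eq_one]
    nlinarith
  have h2 : (⟨x, y⟩ : ℂ) ≠ 0 := by
    intro h3
    rw [h3] at h1
    simp at h1
  refine ⟨Complex.arg ⟨x, y⟩, ?_, ?_⟩
  · rw [Complex.cos_arg h2, h1, div_one]
  · rw [Complex.sin_arg, h1, div_one]

theorem len_aux {x E X : ℝ} (h1 : x ^ 2 ≤ E) (h2 : E ≤ 18 / 64) (h0 : 0 ≤ E) (hX : X = 1 + 2 * x + E) :
    (2 / 5 : ℝ) ^ 2 ≤ X ∧ X ≤ (8 / 5 : ℝ) ^ 2 := by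
  constructor
  · by_contra hcon
    push Not at hcon
    have hy : 21 / 50 + E / 2 < -x := by
      rw [hX] at hcon
      linarith
    have h3 : (21 / 50 + E / 2) * (21 / 50 + E / 2) < (-x) * (-x) :=
      mul_self_lt_mul_self (by linarith) hy
    nlinarith
  · have hx : x ≤ 17 / 32 := by
      by_contra hcon
      push Not at hcon
      have h3 : (17 / 32 : ℝ) * (17 / 32) < x * x := mul_self_lt_mul_self (by norm_num) hcon
      nlinarith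
    rw [hX]
    nlinarith

/-- length of the new normal in the class of boxes with frames bounded in units of the cap -/
theorem Cbx.nn_len {c : ℝ} {B : Cbx} {r H : ℝ} (hB : B.ok c r H) (hc : c ≤ 1 / 8) (p' v' : Fin 2 → ℝ)
    (hp : ∀ k, |p' k - B.p k| ≤ B.u2) (hv : ∀ k, |v' k - B.v k| ≤ B.u2) :
    ∃ (L θ' : ℝ), 2 / 5 ≤ L ∧ L ≤ 8 / 5 ∧ B.nn p' v' 0 = -(L * Real.sin θ') ∧ B.nn p' v' 1 = L * Real.cos θ' := by
  have hE : ∀ k, |B.κ * (v' k - B.v k) - 2 * B.α * (p' k - B.p k)| ≤ 3 / 8 := by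
    intro k
    have h1 : |B.κ * (v' k - B.v k)| ≤ 1 / 8 := by
      rw [abs_mul]
      exact (mul_le_mul_of_nonneg_left (hv k) (abs_nonneg _)).trans (hB.κ2.trans hc)
    have h2 : |B.α * (p' k - B.p k)| ≤ 1 / 8 := by
      rw [abs_mul]
      exact (mul_le_mul_of_nonneg_left (hp k) (abs_nonneg _)).trans (hB.α2.trans hc)
    rw [abs_le] at h1 h2 ⊢
    constructor <;> linarith [h1.1, h1.2, h2.1, h2.2]
  have h0 := hE 0
  have h1 := hE 1
  set e0 := B.κ * (v' 0 - B.v 0) - 2 * B.α * (p' 0 - B.p 0) with he0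
  set e1 := B.κ * (v' 1 - B.v 1) - 2 * B.α * (p' 1 - B.p 1) with he1
  have n0 : B.nn p' v' 0 = -Real.sin B.θ + e0 := by
    simp [Cbx.nn, he0]; ring
  have n1 : B.nn p' v' 1 = Real.cos B.θ + e1 := by
    simp [Cbx.nn, he1]; ring
  have sc := Real.sin_sq_add_cos_sq B.θ
  have q0 : e0 ^ 2 ≤ 9 / 64 := by
    have := sq_le_sq' (abs_le.1 h0).1 (abs_le.1 h0).2
    linarith
  have q1 : e1 ^ 2 ≤ 9 / 64 := by
    have := sq_le_sq' (abs_le.1 h1).1 (abs_le.1 h1).2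
    linarith
  set X := B.nn p' v' 0 ^ 2 + B.nn p' v' 1 ^ 2 with hX
  have hx : X = 1 + 2 * (-Real.sin B.θ * e0 + Real.cos B.θ * e1) + (e0 ^ 2 + e1 ^ 2) := by
    rw [hX, n0, n1]
    linear_combination sc
  have cs : (-Real.sin B.θ * e0 + Real.cos B.θ * e1) ^ 2 ≤ e0 ^ 2 + e1 ^ 2 := by
    have : (-Real.sin B.θ * e0 + Real.cos B.θ * e1) ^ 2 + (Real.cos B.θ * e0 + Real.sin B.θ * e1) ^ 2 = e0 ^ 2 + e1 ^ 2 := by
      linear_combination (e0 ^ 2 + e1 ^ 2) * sc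
    nlinarith [sq_nonneg (Real.cos B.θ * e0 + Real.sin B.θ * e1)]
  set x := -Real.sin B.θ * e0 + Real.cos B.θ * e1 with hxx
  set E := e0 ^ 2 + e1 ^ 2 with hEE
  have hE1 : E ≤ 18 / 64 := by linarith
  have hE0 : 0 ≤ E := by positivity
  obtain ⟨hlow, hup⟩ := len_aux cs hE1 hE0 hx
  have hX0 : 0 < X := lt_of_lt_of_le (by norm_num) hlow
  have hL0 : 0 < Real.sqrt X := Real.sqrt_pos.2 hX0
  have hLs : Real.sqrt X ^ 2 = X := Real.sq_sqrt hX0.le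
  obtain ⟨θ', hc', hs'⟩ := exists_angle (x := B.nn p' v' 1 / Real.sqrt X) (y := -(B.nn p' v' 0) / Real.sqrt X) (by
    rw [div_pow, div_pow, hLs, ← add_div, div_eq_one_iff_eq hX0.ne', hX]; ring)
  refine ⟨Real.sqrt X, θ', Real.le_sqrt_of_sq_le hlow, Real.sqrt_le_iff.2 ⟨by norm_num, hup⟩, ?_, ?_⟩
  · rw [hs']; field_simp
  · rw [hc']; field_simp

/-- recentring: the part of the box `B` (class `1/8`) close to a ray `(p', v', ω')` of `B` is contained in a box centred at this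
ray with the same `κ, α` up to the factor `1/L`, thickness `5 u1` -/
theorem Cbx.recenter {c : ℝ} {B : Cbx} {r H : ℝ} (hB : B.ok c r H) (hc : c ≤ 1 / 8) (p' v' : Fin 2 → ℝ) (ω' : ℝ)
    (hin : B.In H p' v' ω') :
    ∃ (L θ' : ℝ), 2 / 5 ≤ L ∧ L ≤ 8 / 5 ∧ B.nn p' v' 0 = -(L * Real.sin θ') ∧ B.nn p' v' 1 = L * Real.cos θ' ∧
      ∀ (w1 w2 : ℝ) (y q : Fin 2 → ℝ) (z : ℝ), 5 * B.u1 ≤ w1 → |B.g0 y q z| ≤ B.u1 → |B.g1 y q z| ≤ B.u1 →
        (∀ k, |y k - p' k| ≤ w2) → (∀ k, |q k - v' k| ≤ w2) → |z + ∑ k, y k * (q k - v' k) - ω'| ≤ max (w2 ^ 2) H →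
        (Cbx.mk θ' w1 w2 (B.κ / L) (B.α / L) p' v' ω').In H y q z := by
  obtain ⟨hp, hv, -, hg0, hg1⟩ := (B.in_iff H p' v' ω').1 hin
  obtain ⟨L, θ', hL1, hL2, n0, n1⟩ := Cbx.nn_len hB hc p' v' hp hv
  refine ⟨L, θ', hL1, hL2, n0, n1, fun w1 w2 y q z hw1 h0 h1 hy hq hz => ?_⟩
  have hL : 0 < L := by linarith
  have hu : 0 ≤ B.u1 := (abs_nonneg _).trans hg0
  refine ⟨hy, hq, hz, ?_, ?_⟩
  · have e : fn θ' (y - p') + B.κ / L * (z + ∑ k, y k * (q k - v' k) - ω') - B.α / L * ∑ k, (y k - p' k) ^ 2 =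
        (B.g0 y q z - B.g0 p' v' ω') / L := by
      rw [B.g0_rec p' v' y q ω' z, eq_div_iff hL.ne']
      simp only [Fin.sum_univ_two, n0, n1, fn, Pi.sub_apply]
      field_simp
      ring
    show |fn θ' (y - p') + B.κ / L * (z + ∑ k, y k * (q k - v' k) - ω') - B.α / L * ∑ k, (y k - p' k) ^ 2| ≤ w1
    rw [e, abs_div, abs_of_pos hL, div_le_iff₀ hL]
    have := abs_sub (B.g0 y q z) (B.g0 p' v' ω')
    nlinarith
  · have e : fn θ' (q - v') + B.κ / L * (∑ k, (q k - v' k) ^ 2) / 2 +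
        2 * (B.α / L) * (z + ∑ k, p' k * (q k - v' k) - ω') = (B.g1 y q z - B.g1 p' v' ω') / L := by
      rw [B.g1_rec p' v' y q ω' z, eq_div_iff hL.ne']
      simp only [Fin.sum_univ_two, n0, n1, fn, Pi.sub_apply]
      field_simp
      ring
    show |fn θ' (q - v') + B.κ / L * (∑ k, (q k - v' k) ^ 2) / 2 +
        2 * (B.α / L) * (z + ∑ k, p' k * (q k - v' k) - ω')| ≤ w1
    rw [e, abs_div, abs_of_pos hL, div_le_iff₀ hL]
    have := abs_sub (B.g1 y q z) (B.g1 p' v' ω')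
    nlinarith

end Vale.Agent.P106.W
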