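import Vale.Agent.P106.W.Const
import Vale.Agent.P106.K.Blocks

/-! # P106 / W : `PCst` (helper117) -/

set_option autoImplicit false

namespace Vale.Agent.P106.W

open Vale.Agent.P106.K

theorem pCst : PCst := by
  classical
  intro A hA
  obtain ⟨m, C', hC', h⟩ := const_thick A hA
  refine ⟨m + 1, C', by omega, hC', fun r H hr hr1 hH => ?_⟩
  have hex : ∀ B : Cbx, ∃ f : Fin (m + 1) → Cbx, Boh A B r H → ∀ l : Ry, Bin A B H l →
      ∃ j, (f j).ok (1 / 8) r H ∧ (f j).In H l.y l.s l.z ∧ (f j).vol r H ≤ C' * B.vol r H := by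
    intro B
    by_cases hB : Boh A B r H
    · obtain ⟨bx, hbx⟩ := h B r H hr hr1 hH hB.1 hB.2.1 hB.2.2
      refine ⟨fun j => if hj : j.1 < m then bx ⟨j.1, hj⟩ else B, fun _ l hl => ?_⟩
      obtain ⟨j, hj⟩ := hbx l hl
      refine ⟨⟨j.1, by omega⟩, ?_⟩
      simp only [j.2, dite_true]
      exact hj
    · exact ⟨fun _ => B, fun hB' => absurd hB' hB⟩
  choose ref href using hex
  have hidx : ∀ (B : Cbx) (l : Ry), ∃ j : Fin (m + 1), Boh A B r H → Bin A B H l →
      (ref B j).ok (1 / 8) r H ∧ (ref B j).In H l.y l.s l.z ∧ (ref B j).vol r H ≤ C' * B.vol r H := by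
    intro B l
    by_cases hB : Boh A B r H ∧ Bin A B H l
    · obtain ⟨j, hj⟩ := href B hB.1 l hB.2
      exact ⟨j, fun _ _ => hj⟩
    · exact ⟨0, fun h1 h2 => absurd ⟨h1, h2⟩ hB⟩
  choose idx hidx using hidx
  exact ⟨idx, ref, fun B l hB hl => hidx B l hB hl⟩

end Vale.Agent.P106.W
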