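import Vale.Agent.P106.W.Rec

/-! # P106 / W : cutting of the cap of the conformal boxes (helper117)

`split` : if the bound `∑ a ≤ Λ vol` holds for all boxes with frames bounded by `1/(8 C)` (in units of the cap), it holds for all
boxes of the full class `1/8`, with another constant. -/

set_option autoImplicit false

namespace Vale.Agent.P106.W

open Vale.Agent.P122.C2 (Z2 par kids Cap fw fn)

theorem Cbx.vol_nonneg (B : Cbx) (r H : ℝ) (h1 : 0 ≤ B.u1) (h2 : 0 ≤ B.u2) : 0 ≤ B.vol r H := by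
  unfold Cbx.vol
  positivity

/-- volume of a small box inside a large one -/
theorem vol_le {r H a1 a2 b1 b2 : ℝ} (hH : 0 < H) (hr : 0 < r) (ha1 : 0 ≤ a1) (ha2 : 0 ≤ a2) (h : a1 * a2 ≤ 5 * (b1 * b2))
    (h2 : a2 ≤ b2) : a1 * a2 / r ^ 2 * max 1 (a2 ^ 2 / H) ≤ 5 * (b1 * b2 / r ^ 2 * max 1 (b2 ^ 2 / H)) := by
  have e : 5 * (b1 * b2 / r ^ 2 * max 1 (b2 ^ 2 / H)) = 5 * (b1 * b2) / r ^ 2 * max 1 (b2 ^ 2 / H) := by ring
  rw [e]
  refine mul_le_mul (div_le_div_of_nonneg_right h (by positivity)) (max_le_max le_rfl ?_) (by positivity) ?_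
  · exact div_le_div_of_nonneg_right (pow_le_pow_left₀ ha2 h2 2) hH.le
  · exact div_nonneg (le_trans (by positivity) h) (by positivity)

/-- the cell of a ray in the grid of the box `B`: `D` pieces per unit of the cap -/
noncomputable def Cbx.key (B : Cbx) (D : ℕ) (H : ℝ) (y q : Fin 2 → ℝ) (z : ℝ) : (Fin 2 → ℤ) × (Fin 2 → ℤ) × ℤ :=
  (fun k => ⌊4 * D ^ 2 * (y k - B.p k) / B.u2⌋, fun k => ⌊4 * D ^ 2 * (q k - B.v k) / B.u2⌋,
    ⌊2 * D ^ 2 * B.zz y q z / max (B.u2 ^ 2) H⌋)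

/-- the values of `key` on the box -/
noncomputable def keys (D : ℕ) : Finset ((Fin 2 → ℤ) × (Fin 2 → ℤ) × ℤ) :=
  (Fintype.piFinset fun _ => Finset.Icc (-(4 * (D : ℤ) ^ 2)) (4 * (D : ℤ) ^ 2)) ×ˢ
    (Fintype.piFinset fun _ => Finset.Icc (-(4 * (D : ℤ) ^ 2)) (4 * (D : ℤ) ^ 2)) ×ˢ
      Finset.Icc (-(2 * (D : ℤ) ^ 2)) (2 * (D : ℤ) ^ 2)

theorem floor_mem {A x : ℝ} {m : ℕ} (hA : 0 < A) (h : |x| ≤ A) : ⌊(m : ℝ) * x / A⌋ ∈ Finset.Icc (-(m : ℤ)) m := by
  rw [Finset.mem_Icc]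
  have h1 := abs_le.1 h
  have hm : (0 : ℝ) ≤ m := Nat.cast_nonneg m
  constructor
  · rw [Int.le_floor]
    push_cast
    rw [le_div_iff₀ hA]
    nlinarith
  · have : (m : ℝ) * x / A ≤ m := by
      rw [div_le_iff₀ hA]
      nlinarith
    have h2 : ⌊(m : ℝ) * x / A⌋ ≤ ⌊((m : ℤ) : ℝ)⌋ := Int.floor_le_floor (by push_cast; exact this)
    simpa using h2

theorem Cbx.key_mem {B : Cbx} {D : ℕ} {H : ℝ} {y q : Fin 2 → ℝ} {z : ℝ} (h2 : 0 < B.u2) (hin : B.In H y q z) :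
    B.key D H y q z ∈ keys D := by
  obtain ⟨hy, hq, hz, -, -⟩ := (B.in_iff H y q z).1 hin
  have hM : 0 < max (B.u2 ^ 2) H := lt_max_of_lt_left (by positivity)
  unfold keys Cbx.key
  simp only [Finset.mem_product, Fintype.mem_piFinset]
  refine ⟨fun k => ?_, fun k => ?_, ?_⟩
  · have := floor_mem (m := 4 * D ^ 2) h2 (hy k)
    push_cast at this
    exact this
  · have := floor_mem (m := 4 * D ^ 2) h2 (hq k)
    push_cast at this
    exact this
  · have := floor_mem (m := 2 * D ^ 2) hM hz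
    push_cast at this
    exact this

theorem floor_close {A x x' : ℝ} {m : ℝ} (hA : 0 < A) (hm : 0 < m) (h : ⌊m * x / A⌋ = ⌊m * x' / A⌋) : |x - x'| ≤ A / m := by
  have h1 := Int.abs_sub_lt_one_of_floor_eq_floor h
  have e : m * x / A - m * x' / A = (x - x') * (m / A) := by ring
  rw [e, abs_mul, abs_of_pos (div_pos hm hA)] at h1
  rw [le_div_iff₀ hm]
  have : |x - x'| * (m / A) = |x - x'| * m / A := by ring
  rw [this, div_lt_one hA] at h1
  exact h1.le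

/-- the rays of a cell of the grid are in one box of the smaller class -/
theorem Cbx.cut {B : Cbx} {r H : ℝ} (hr : 0 < r) (hH : 0 < H) (hB : B.ok (1 / 8) r H) {D : ℕ} (hD : 1 ≤ D)
    {p' v' : Fin 2 → ℝ} {ω' : ℝ} (hin : B.In H p' v' ω') :
    ∃ B' : Cbx, B'.ok (5 / 16 / D) r H ∧ B'.vol r H ≤ 5 * B.vol r H ∧ ∀ (y q : Fin 2 → ℝ) (z : ℝ), B.In H y q z →
      B.key D H y q z = B.key D H p' v' ω' → B'.In H y q z := by
  have hu1 : 0 < B.u1 := lt_of_lt_of_le hr hB.r1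
  have hu2 : 0 < B.u2 := lt_of_lt_of_le hu1 hB.u12
  have hM : 0 < max (B.u2 ^ 2) H := lt_max_of_lt_left (by positivity)
  have hD0 : (0 : ℝ) < D := by exact_mod_cast hD
  have hD1 : (1 : ℝ) ≤ D := by exact_mod_cast hD
  have hD2 : (0 : ℝ) < D ^ 2 := by positivity
  -- distances inside a cell
  have key : ∀ (y q : Fin 2 → ℝ) (z : ℝ), B.In H y q z → B.key D H y q z = B.key D H p' v' ω' →
      (∀ k, |y k - p' k| ≤ B.u2 / (4 * D ^ 2)) ∧ (∀ k, |q k - v' k| ≤ B.u2 / (4 * D ^ 2)) ∧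
      |z + ∑ k, y k * (q k - v' k) - ω'| ≤ max (B.u2 ^ 2) H / D ^ 2 := by
    intro y q z hyq hk
    unfold Cbx.key at hk
    simp only [Prod.mk.injEq] at hk
    obtain ⟨k1, k2, k3⟩ := hk
    have c1 : ∀ k, |y k - p' k| ≤ B.u2 / (4 * D ^ 2) := fun k => by
      have := floor_close hu2 (by positivity) (congrFun k1 k)
      rwa [sub_sub_sub_cancel_right] at this
    have c2 : ∀ k, |q k - v' k| ≤ B.u2 / (4 * D ^ 2) := fun k => by
      have := floor_close hu2 (by positivity) (congrFun k2 k)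
      rwa [sub_sub_sub_cancel_right] at this
    refine ⟨c1, c2, ?_⟩
    have c3 := floor_close hM (by positivity) k3
    have hv : ∀ k, |v' k - B.v k| ≤ B.u2 := hin.2.1
    have c4 : |∑ k, (y k - p' k) * (v' k - B.v k)| ≤ max (B.u2 ^ 2) H / (2 * D ^ 2) := by
      rw [Fin.sum_univ_two]
      have a0 : ∀ k, |(y k - p' k) * (v' k - B.v k)| ≤ B.u2 ^ 2 / (4 * D ^ 2) := fun k => by
        rw [abs_mul]
        calc |y k - p' k| * |v' k - B.v k| ≤ B.u2 / (4 * D ^ 2) * B.u2 :=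
              mul_le_mul (c1 k) (hv k) (abs_nonneg _) (by positivity)
          _ = B.u2 ^ 2 / (4 * D ^ 2) := by ring
      calc |(y 0 - p' 0) * (v' 0 - B.v 0) + (y 1 - p' 1) * (v' 1 - B.v 1)|
          ≤ B.u2 ^ 2 / (4 * D ^ 2) + B.u2 ^ 2 / (4 * D ^ 2) := (abs_add_le _ _).trans (add_le_add (a0 0) (a0 1))
        _ = B.u2 ^ 2 / (2 * D ^ 2) := by field_simp; ring
        _ ≤ max (B.u2 ^ 2) H / (2 * D ^ 2) := div_le_div_of_nonneg_right (le_max_left _ _) (by positivity)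
    rw [B.zz_rec p' v' y q ω' z]
    calc |B.zz y q z - B.zz p' v' ω' - ∑ k, (y k - p' k) * (v' k - B.v k)|
        ≤ |B.zz y q z - B.zz p' v' ω'| + |∑ k, (y k - p' k) * (v' k - B.v k)| := abs_sub _ _
      _ ≤ max (B.u2 ^ 2) H / (2 * D ^ 2) + max (B.u2 ^ 2) H / (2 * D ^ 2) := add_le_add c3 c4
      _ = max (B.u2 ^ 2) H / D ^ 2 := by field_simp; ring
  have hq4 : B.u2 / (4 * D ^ 2) ≤ B.u2 / D := by
    apply div_le_div_of_nonneg_left hu2.le hD0
    nlinarith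
  have hmax : max (B.u2 ^ 2) H / D ^ 2 ≤ max ((B.u2 / D) ^ 2) H := by
    rw [div_le_iff₀ hD2]
    refine max_le ?_ ?_
    · have : B.u2 ^ 2 = (B.u2 / D) ^ 2 * D ^ 2 := by field_simp
      calc B.u2 ^ 2 = (B.u2 / D) ^ 2 * D ^ 2 := this
        _ ≤ _ := mul_le_mul_of_nonneg_right (le_max_left _ _) hD2.le
    · calc H = H * 1 := (mul_one H).symm
        _ ≤ max ((B.u2 / D) ^ 2) H * D ^ 2 :=
          mul_le_mul (le_max_right _ _) (by nlinarith) zero_le_one (le_trans hH.le (le_max_right _ _))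
  by_cases hcase : 5 * B.u1 ≤ B.u2 / D
  · -- the slab is thinner than the new cap
    obtain ⟨L, θ', hL1, hL2, -, -, hrec⟩ := Cbx.recenter hB le_rfl p' v' ω' hin
    have hL : 0 < L := by linarith
    refine ⟨⟨θ', 5 * B.u1, B.u2 / D, B.κ / L, B.α / L, p', v', ω'⟩, ⟨?_, hcase, ?_, ?_, ?_, ?_, ?_⟩, ?_, ?_⟩
    · show r ≤ 5 * B.u1
      linarith [hB.r1]
    · show B.u2 / D ≤ 1
      rw [div_le_one hD0]
      linarith [hB.u2]
    · show |B.α / L| * (B.u2 / D) ≤ 5 / 16 / D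
      rw [abs_div, abs_of_pos hL]
      have : |B.α| / L * (B.u2 / D) = (|B.α| * B.u2) / L / D := by ring
      rw [this]
      apply div_le_div_of_nonneg_right _ hD0.le
      rw [div_le_iff₀ hL]
      nlinarith [hB.α2]
    · show |B.κ / L| * (B.u2 / D) ≤ 5 / 16 / D
      rw [abs_div, abs_of_pos hL]
      have : |B.κ| / L * (B.u2 / D) = (|B.κ| * B.u2) / L / D := by ring
      rw [this]
      apply div_le_div_of_nonneg_right _ hD0.le
      rw [div_le_iff₀ hL]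
      nlinarith [hB.κ2]
    · show |B.α / L| * H ≤ 5 * B.u1
      rw [abs_div, abs_of_pos hL]
      have : |B.α| / L * H = (|B.α| * H) / L := by ring
      rw [this, div_le_iff₀ hL]
      nlinarith [hB.αH]
    · show |B.κ / L| * H ≤ 5 * B.u1
      rw [abs_div, abs_of_pos hL]
      have : |B.κ| / L * H = (|B.κ| * H) / L := by ring
      rw [this, div_le_iff₀ hL]
      nlinarith [hB.κH]
    · show 5 * B.u1 * (B.u2 / D) / r ^ 2 * max 1 ((B.u2 / D) ^ 2 / H) ≤ 5 * (B.u1 * B.u2 / r ^ 2 * max 1 (B.u2 ^ 2 / H))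
      have hle : B.u2 / D ≤ B.u2 := div_le_self hu2.le hD1
      refine vol_le hH hr (by positivity) (by positivity) ?_ hle
      nlinarith
    · intro y q z hyq hk
      obtain ⟨c1, c2, c3⟩ := key y q z hyq hk
      obtain ⟨-, -, -, h0, h1⟩ := (B.in_iff H y q z).1 hyq
      exact hrec (5 * B.u1) (B.u2 / D) y q z le_rfl h0 h1 (fun k => (c1 k).trans hq4) (fun k => (c2 k).trans hq4) (c3.trans hmax)
  · -- a ball
    push Not at hcase
    set u := max (B.u2 / D) r with hu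
    have hu0 : 0 < u := lt_max_of_lt_right hr
    have huB : u ≤ B.u2 := max_le (div_le_self hu2.le hD1) (hB.r1.trans hB.u12)
    have huu : u ≤ 5 * B.u1 := max_le hcase.le (by linarith [hB.r1])
    refine ⟨⟨0, u, u, 0, 0, p', v', ω'⟩, ⟨le_max_right _ _, le_rfl, huB.trans hB.u2, ?_, ?_, ?_, ?_⟩, ?_, ?_⟩
    · show |(0 : ℝ)| * u ≤ 5 / 16 / D
      rw [abs_zero, zero_mul]; positivity
    · show |(0 : ℝ)| * u ≤ 5 / 16 / D
      rw [abs_zero, zero_mul]; positivity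
    · show |(0 : ℝ)| * H ≤ u
      rw [abs_zero, zero_mul]; exact hu0.le
    · show |(0 : ℝ)| * H ≤ u
      rw [abs_zero, zero_mul]; exact hu0.le
    · show u * u / r ^ 2 * max 1 (u ^ 2 / H) ≤ 5 * (B.u1 * B.u2 / r ^ 2 * max 1 (B.u2 ^ 2 / H))
      refine vol_le hH hr hu0.le hu0.le ?_ huB
      nlinarith
    · intro y q z hyq hk
      obtain ⟨c1, c2, c3⟩ := key y q z hyq hk
      have hqu : B.u2 / (4 * D ^ 2) ≤ u := hq4.trans (le_max_left _ _)
      refine ⟨fun k => (c1 k).trans hqu, fun k => (c2 k).trans hqu, ?_, ?_, ?_⟩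
      · refine c3.trans (hmax.trans (max_le_max ?_ le_rfl))
        exact pow_le_pow_left₀ (by positivity) (le_max_left _ _) 2
      · show |fn 0 (y - p') + 0 * (z + ∑ k, y k * (q k - v' k) - ω') - 0 * ∑ k, (y k - p' k) ^ 2| ≤ u
        have e : fn 0 (y - p') + 0 * (z + ∑ k, y k * (q k - v' k) - ω') - 0 * ∑ k, (y k - p' k) ^ 2 = y 1 - p' 1 := by
          simp [fn]
        rw [e]
        exact (c1 1).trans hqu
      · show |fn 0 (q - v') + 0 * (∑ k, (q k - v' k) ^ 2) / 2 + 2 * 0 * (z + ∑ k, p' k * (q k - v' k) - ω')| ≤ u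
        have e : fn 0 (q - v') + 0 * (∑ k, (q k - v' k) ^ 2) / 2 + 2 * 0 * (z + ∑ k, p' k * (q k - v' k) - ω') = q 1 - v' 1 := by
          simp [fn]
        rw [e]
        exact (c2 1).trans hqu

/-- **cutting of the cap**: from the boxes of the class `1/(8 C)` to the boxes of the full class `1/8` -/
theorem split (C : ℝ) (hC : 1 ≤ C) : ∃ C' : ℝ, 1 ≤ C' ∧ ∀ {ι : Type} (y q : ι → Fin 2 → ℝ) (z a : ι → ℝ)
    (r H Λ : ℝ), 0 < r → 0 < H → 0 ≤ Λ →
    (∀ (B : Cbx) (U : Finset ι), B.ok (1 / (8 * C)) r H → (∀ S ∈ U, B.In H (y S) (q S) (z S)) → ∑ S ∈ U, a S ≤ Λ * B.vol r H) →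
    ∀ (B : Cbx) (U : Finset ι), B.ok (1 / 8) r H → (∀ S ∈ U, B.In H (y S) (q S) (z S)) →
      ∑ S ∈ U, a S ≤ C' * Λ * B.vol r H := by
  classical
  obtain ⟨D0, hD0⟩ := exists_nat_ge (5 / 2 * C)
  set D : ℕ := D0 + 1 with hD
  have hD1 : 1 ≤ D := by omega
  have hDC : 5 / 2 * C ≤ D := by rw [hD]; push_cast; linarith
  have hDp : (0 : ℝ) < D := by linarith
  refine ⟨max 1 (((keys D).card : ℝ) * 5), le_max_left _ _, ?_⟩
  intro ι y q z a r H Λ hr hH hΛ hyp B U hB hU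
  have hu1 : 0 < B.u1 := lt_of_lt_of_le hr hB.r1
  have hu2 : 0 < B.u2 := lt_of_lt_of_le hu1 hB.u12
  have hvol : 0 ≤ B.vol r H := B.vol_nonneg r H hu1.le hu2.le
  have hfib : ∑ S ∈ U, a S = ∑ k ∈ keys D, ∑ S ∈ U with B.key D H (y S) (q S) (z S) = k, a S :=
    (Finset.sum_fiberwise_of_maps_to (fun S hS => Cbx.key_mem hu2 (hU S hS)) _).symm
  have hcell : ∀ k ∈ keys D, ∑ S ∈ U with B.key D H (y S) (q S) (z S) = k, a S ≤ Λ * (5 * B.vol r H) := by
    intro k _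
    rcases (U.filter fun S => B.key D H (y S) (q S) (z S) = k).eq_empty_or_nonempty with h | ⟨S0, hS0⟩
    · rw [h, Finset.sum_empty]; positivity
    · rw [Finset.mem_filter] at hS0
      obtain ⟨B', hok, hv, hin⟩ := Cbx.cut hr hH hB hD1 (hU S0 hS0.1)
      have hok' : B'.ok (1 / (8 * C)) r H := by
        refine ⟨hok.r1, hok.u12, hok.u2, hok.α2.trans ?_, hok.κ2.trans ?_, hok.αH, hok.κH⟩ <;>
        · rw [div_div, div_le_div_iff₀ (by positivity) (by positivity)]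
          nlinarith
      refine (hyp B' _ hok' fun S hS => ?_).trans (mul_le_mul_of_nonneg_left hv hΛ)
      rw [Finset.mem_filter] at hS
      exact hin _ _ _ (hU S hS.1) (hS.2.trans hS0.2.symm)
  rw [hfib]
  calc ∑ k ∈ keys D, ∑ S ∈ U with B.key D H (y S) (q S) (z S) = k, a S
      ≤ (keys D).card • (Λ * (5 * B.vol r H)) := Finset.sum_le_card_nsmul _ _ _ hcell
    _ = ((keys D).card * 5) * Λ * B.vol r H := by rw [nsmul_eq_mul]; ring
    _ ≤ (max (1 : ℝ) (((keys D).card : ℝ) * 5)) * Λ * B.vol r H :=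
      mul_le_mul_of_nonneg_right (mul_le_mul_of_nonneg_right (le_max_right _ _) hΛ) hvol

/-- the Katz-Tao condition of `KTop` for the full class of boxes -/
theorem KTop.full {C : ℝ} (hC : 1 ≤ C) : ∃ C' : ℝ, 1 ≤ C' ∧ ∀ {n h K : ℕ} (F : Amp C n h K) (Λ : ℝ), 0 ≤ Λ → KTop F Λ →
    ∀ (B : Cbx) (U : Finset Nd), B.ok (1 / 8) ((1 / 2 : ℝ) ^ (K * n)) (hh n h K) → (∀ S ∈ U, InB n h K B S) →
      ∑ S ∈ U, F.a K S ^ 2 ≤ C' * Λ * B.vol ((1 / 2 : ℝ) ^ (K * n)) (hh n h K) := by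
  obtain ⟨C', h1, h2⟩ := split C hC
  refine ⟨C', h1, fun {n h K} F Λ hΛ hK B U hB hU => ?_⟩
  exact h2 (fun S : Nd => ry n K S) (fun S => s0 n K S.b.τ) (fun S => rz n h K S) (fun S => F.a K S ^ 2)
    ((1 / 2 : ℝ) ^ (K * n)) (hh n h K) Λ (by positivity) (by unfold hh; positivity) hΛ
    (fun B U hB hU => hK B U hB hU) B U hB hU

end Vale.Agent.P106.W
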