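import Vale.Agent.P106.R.E.Defs

/-!
# P106 / W / Geo : geometry of one flag of the cone (helper117; first part copied from P122/H535/Geo)

`geo_T`, `geo_τ`, `geo_cap`, `geo_t`, `geo_slp`, `geo_pos` as in P122, and
`geo_w` : consistency of the index `w` along a flag: for `c ≤ d`,
`2^(h n) w_d = 2^(h n) w_c + Φ + O(C' 2^(h n))`, `Φ = - x_c·(s_d - s_c) + t_c (|s_d|² - |s_c|²)/2`, `x_c = 2^(c n) o_c`,
`t_c = 2^(2 c n) T_c` (the change of the adapted coordinate at the point `(x_c, t_c)`).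
-/

set_option autoImplicit false

namespace Vale.Agent.P106.WGeo

open Filter Topology Finset Vale.Agent.P127 Vale.Agent.P127.Stk Vale.Agent.P127.U Vale.Agent.P127.U.Sys
  Vale.Agent.P106.R.C2 Vale.Agent.P106.R.E

variable {K : ℕ} (F : Flg K)

theorem geo_kid {n : ℕ} {τ τ' : Z2} (h : τ' ∈ kids n τ) (k : Fin 2) :
    2 ^ n * τ k ≤ τ' k ∧ τ' k < 2 ^ n * (τ k + 1) := by
  unfold kids at h
  rw [Fintype.mem_piFinset] at h
  exact mem_Ico.1 (h k)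

theorem geo_div {n : ℕ} {τ τ' : Z2} (h : τ' ∈ kids n τ) (k : Fin 2) : τ' k / 2 ^ n = τ k := by
  obtain ⟨h1, h2⟩ := geo_kid h k
  have h0 : (0 : ℤ) < 2 ^ n := by positivity
  refine le_antisymm ?_ ?_
  · have : τ' k / 2 ^ n < τ k + 1 := Int.ediv_lt_of_lt_mul h0 (by linarith)
    omega
  · rw [Int.le_ediv_iff_mul_le h0]
    linarith

theorem geo_cap {i : ℕ} {ω : F.S.Ω i} (hω : 0 < (F.S.P i).w ω) {d : ℕ} (hd : d ≤ K) :
    Cap (F.n i) d (F.N d i ω).τ := by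
  induction d with
  | zero =>
    intro k
    rw [(F.root i ω hω).1]
    simp
  | succ d ih =>
    intro k
    obtain ⟨h1, h2⟩ := geo_kid (F.step i ω hω d hd).1 k
    obtain ⟨h3, h4⟩ := ih (by omega) k
    have h0 : (0 : ℤ) < 2 ^ F.n i := by positivity
    have e : ((2 : ℤ) ^ ((d + 1) * F.n i)) = 2 ^ F.n i * 2 ^ (d * F.n i) := by
      rw [← pow_add]; congr 1; ring
    rw [e]
    constructor
    · nlinarith
    · refine lt_of_lt_of_le h2 ?_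
      exact mul_le_mul_of_nonneg_left (by omega) h0.le

theorem geo_T1 {i : ℕ} {ω : F.S.Ω i} (hω : 0 < (F.S.P i).w ω) {d : ℕ} (hd : d < K) :
    (F.N (d + 1) i ω).T = (F.N d i ω).T / 2 ^ (2 * F.n i) := by
  have h := (F.step i ω hω d hd).2
  have h1 := congrArg Nd.T h
  exact h1

theorem geo_T {i : ℕ} {ω : F.S.Ω i} (hω : 0 < (F.S.P i).w ω) {c d : ℕ} (hcd : c ≤ d) (hd : d ≤ K) :
    (F.N c i ω).T / 2 ^ (2 * (d - c) * F.n i) = (F.N d i ω).T := by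
  induction d, hcd using Nat.le_induction with
  | base => simp
  | succ d hcd ih =>
    rw [geo_T1 F hω hd, ← ih (by omega)]
    have e : 2 * (d + 1 - c) * F.n i = 2 * (d - c) * F.n i + 2 * F.n i := by
      have : d + 1 - c = (d - c) + 1 := by omega
      rw [this]; ring
    rw [e, pow_add]
    exact (Int.ediv_ediv_of_nonneg (by positivity)).symm

theorem geo_τ {i : ℕ} {ω : F.S.Ω i} (hω : 0 < (F.S.P i).w ω) {c d : ℕ} (hcd : c ≤ d) (hd : d ≤ K) (k : Fin 2) :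
    (F.N d i ω).τ k / 2 ^ ((d - c) * F.n i) = (F.N c i ω).τ k := by
  induction d, hcd using Nat.le_induction with
  | base => simp
  | succ d hcd ih =>
    rw [← ih (by omega), ← geo_div (F.step i ω hω d hd).1 k]
    have e : (d + 1 - c) * F.n i = F.n i + (d - c) * F.n i := by
      have : d + 1 - c = (d - c) + 1 := by omega
      rw [this]; ring
    rw [e, pow_add]
    exact (Int.ediv_ediv_of_nonneg (by positivity)).symm

/-- time of the block -/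
noncomputable def gt (i : ℕ) (ω : F.S.Ω i) (c : ℕ) : ℝ := ((F.N c i ω).T : ℝ) * 2 ^ (2 * c * F.n i)

theorem geo_mod (a : ℤ) (m : ℕ) : ((a % 2 ^ m : ℤ) : ℝ) = (a : ℝ) - 2 ^ m * ((a / 2 ^ m : ℤ) : ℝ) := by
  have h := Int.emod_add_mul_ediv a (2 ^ m)
  have h1 : ((a % 2 ^ m + 2 ^ m * (a / 2 ^ m) : ℤ) : ℝ) = a := by rw [h]
  push_cast at h1
  linarith

theorem geo_t {i : ℕ} {ω : F.S.Ω i} (hω : 0 < (F.S.P i).w ω) {c d : ℕ} (hcd : c ≤ d) (hd : d ≤ K) :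
    0 ≤ gt F i ω c - gt F i ω d ∧ gt F i ω c - gt F i ω d ≤ 2 ^ (2 * d * F.n i) := by
  obtain ⟨e, rfl⟩ := Nat.exists_eq_add_of_le hcd
  have h1 := geo_T F hω hcd hd
  rw [Nat.add_sub_cancel_left] at h1
  have h2 := geo_mod (F.N c i ω).T (2 * e * F.n i)
  rw [h1] at h2
  have h0 : (0 : ℤ) < 2 ^ (2 * e * F.n i) := by positivity
  have h3 : (0 : ℝ) ≤ (((F.N c i ω).T % 2 ^ (2 * e * F.n i) : ℤ) : ℝ) := by
    exact_mod_cast Int.emod_nonneg _ h0.ne'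
  have h4 : (((F.N c i ω).T % 2 ^ (2 * e * F.n i) : ℤ) : ℝ) ≤ 2 ^ (2 * e * F.n i) := by
    exact_mod_cast (Int.emod_lt_of_pos (F.N c i ω).T h0).le
  have e1 : (2 : ℝ) ^ (2 * (c + e) * F.n i) = 2 ^ (2 * e * F.n i) * 2 ^ (2 * c * F.n i) := by
    rw [← pow_add]; congr 1; ring
  have h5 : gt F i ω c - gt F i ω (c + e) =
      (((F.N c i ω).T % 2 ^ (2 * e * F.n i) : ℤ) : ℝ) * 2 ^ (2 * c * F.n i) := by
    unfold gt
    rw [h2, e1]
    ring
  rw [h5, e1]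
  exact ⟨by positivity, mul_le_mul_of_nonneg_right h4 (by positivity)⟩

theorem geo_slp1 {i : ℕ} {ω : F.S.Ω i} (hω : 0 < (F.S.P i).w ω) {d : ℕ} (hd : d < K) (k : Fin 2) :
    |F.s i (d + 1) (F.N (d + 1) i ω).τ k - F.s i d (F.N d i ω).τ k| ≤ |F.C| / 2 ^ (d * F.n i) := by
  have h1 := (F.slp i).nest d _ k hd (geo_cap F hω hd)
  have h2 : par (F.n i) (F.N (d + 1) i ω).τ = (F.N d i ω).τ := by
    funext k
    exact geo_div (F.step i ω hω d hd).1 k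
  rw [h2] at h1
  exact h1.trans (div_le_div_of_nonneg_right (le_abs_self _) (by positivity))

theorem geo_slp {i : ℕ} {ω : F.S.Ω i} (hω : 0 < (F.S.P i).w ω) {c d : ℕ} (hcd : c ≤ d) (hd : d ≤ K) (k : Fin 2) :
    |F.s i d (F.N d i ω).τ k - F.s i c (F.N c i ω).τ k| ≤ ((d : ℝ) - c) * |F.C| / 2 ^ (c * F.n i) := by
  induction d, hcd using Nat.le_induction with
  | base => simp
  | succ d hcd ih =>
    have h1 := ih (by omega)
    have h2 := geo_slp1 F hω hd k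
    have h3 : |F.C| / 2 ^ (d * F.n i) ≤ |F.C| / 2 ^ (c * F.n i) := by
      refine div_le_div_of_nonneg_left (abs_nonneg _) (by positivity) ?_
      exact pow_le_pow_right₀ (by norm_num) (Nat.mul_le_mul_right _ hcd)
    have h4 := abs_sub_le (F.s i (d + 1) (F.N (d + 1) i ω).τ k) (F.s i d (F.N d i ω).τ k) (F.s i c (F.N c i ω).τ k)
    have h5 : (((d + 1 : ℕ) : ℝ) - c) * |F.C| / 2 ^ (c * F.n i) =
        |F.C| / 2 ^ (c * F.n i) + ((d : ℝ) - c) * |F.C| / 2 ^ (c * F.n i) := by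
      push_cast; ring
    rw [h5]
    linarith

/-- the position of the tube of level `d` at the time of the block of level `c` -/
noncomputable def gp (i : ℕ) (ω : F.S.Ω i) (c d : ℕ) (k : Fin 2) : ℝ :=
  2 ^ (d * F.n i) * ((F.N d i ω).o k : ℝ) + (gt F i ω c - gt F i ω d) * F.s i d (F.N d i ω).τ k

theorem geo_pos1 {i : ℕ} {ω : F.S.Ω i} (hω : 0 < (F.S.P i).w ω) {c d : ℕ} (hcd : c ≤ d) (hd : d < K) (k : Fin 2) :
    |gp F i ω c (d + 1) k - gp F i ω c d k| ≤ (|F.C| + 2) * 2 ^ ((d + 1) * F.n i) := by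
  obtain ⟨t0, t1⟩ := geo_t F hω hcd hd.le
  have hs := geo_slp1 F hω hd k
  have hT := geo_T1 F hω hd
  -- the offset
  have ho : (F.N (d + 1) i ω).o k = ⌊(((F.N d i ω).o k / 2 ^ F.n i : ℤ) : ℝ) -
      (((F.N d i ω).T % 2 ^ (2 * F.n i) : ℤ) : ℝ) * 2 ^ (2 * d * F.n i) *
        F.s i (d + 1) (F.N (d + 1) i ω).τ k / 2 ^ ((d + 1) * F.n i)⌋ := by
    have h := (F.step i ω hω d hd).2
    have h1 := congrFun (congrArg Nd.o h) k
    exact h1
  have hmod := geo_mod (F.N d i ω).T (2 * F.n i)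
  rw [← hT] at hmod
  have hdiv := geo_mod ((F.N d i ω).o k) (F.n i)
  have hr0 : (0 : ℝ) ≤ (((F.N d i ω).o k % 2 ^ F.n i : ℤ) : ℝ) := by
    exact_mod_cast Int.emod_nonneg _ (by positivity)
  have hr1 : (((F.N d i ω).o k % 2 ^ F.n i : ℤ) : ℝ) ≤ 2 ^ F.n i := by
    exact_mod_cast (Int.emod_lt_of_pos ((F.N d i ω).o k) (by positivity : (0 : ℤ) < 2 ^ F.n i)).le
  set q : ℤ := (F.N d i ω).o k / 2 ^ F.n i with hq
  set r : ℝ := (((F.N d i ω).o k % 2 ^ F.n i : ℤ) : ℝ) with hr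
  set s' : ℝ := F.s i (d + 1) (F.N (d + 1) i ω).τ k with hs'
  set s0 : ℝ := F.s i d (F.N d i ω).τ k with hs0
  set A : ℝ := 2 ^ (d * F.n i) with hA
  set B : ℝ := 2 ^ ((d + 1) * F.n i) with hB
  have hA0 : 0 < A := by positivity
  have hB0 : 0 < B := by positivity
  have hAB : B = A * 2 ^ F.n i := by rw [hA, hB, ← pow_add]; congr 1; ring
  have hAB' : A ≤ B := by
    rw [hAB]
    exact le_mul_of_one_le_right hA0.le (one_le_pow₀ (by norm_num))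
  have hAA : (2 : ℝ) ^ (2 * d * F.n i) = A * A := by rw [hA, ← pow_add]; congr 1; ring
  -- floor
  set z : ℝ := (q : ℝ) - (((F.N d i ω).T % 2 ^ (2 * F.n i) : ℤ) : ℝ) * 2 ^ (2 * d * F.n i) * s' / B with hz
  have f1 := Int.floor_le z
  have f2 := Int.lt_floor_add_one z
  rw [← ho] at f1 f2
  have g1 : B * ((F.N (d + 1) i ω).o k : ℝ) ≤ B * z := mul_le_mul_of_nonneg_left f1 hB0.le
  have g2 : B * z ≤ B * ((F.N (d + 1) i ω).o k : ℝ) + B := by nlinarith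
  have hBz : B * z = A * ((F.N d i ω).o k : ℝ) - A * r - (gt F i ω d - gt F i ω (d + 1)) * s' := by
    have e1 : (2 : ℝ) ^ (2 * (d + 1) * F.n i) = 2 ^ (2 * F.n i) * 2 ^ (2 * d * F.n i) := by
      rw [← pow_add]; congr 1; ring
    have e2 : gt F i ω d - gt F i ω (d + 1) = (((F.N d i ω).T % 2 ^ (2 * F.n i) : ℤ) : ℝ) * 2 ^ (2 * d * F.n i) := by
      unfold gt
      rw [hmod, e1]; ring
    rw [e2, hz, mul_sub, mul_div_cancel₀ _ hB0.ne', hdiv, hAB]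
    ring
  have e3 : gp F i ω c (d + 1) k - gp F i ω c d k =
      (B * ((F.N (d + 1) i ω).o k : ℝ) - B * z) - A * r + (gt F i ω c - gt F i ω d) * (s' - s0) := by
    unfold gp
    rw [hBz, ← hA, ← hB, ← hs', ← hs0]
    ring
  have g3 : |(gt F i ω c - gt F i ω d) * (s' - s0)| ≤ |F.C| * B := by
    rw [abs_mul, abs_of_nonneg t0]
    have h1 : (gt F i ω c - gt F i ω d) * |s' - s0| ≤ (A * A) * (|F.C| / A) := by
      refine mul_le_mul (t1.trans_eq hAA) hs (abs_nonneg _) (by positivity)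
    refine h1.trans ?_
    have h2 : A * A * (|F.C| / A) = |F.C| * A := by field_simp
    rw [h2]
    exact mul_le_mul_of_nonneg_left hAB' (abs_nonneg _)
  have g4 : 0 ≤ A * r ∧ A * r ≤ B := by
    rw [hAB]
    exact ⟨by positivity, mul_le_mul_of_nonneg_left hr1 hA0.le⟩
  rw [e3]
  rw [abs_le] at g3 ⊢
  constructor <;> nlinarith [g3.1, g3.2, g4.1, g4.2]

theorem geo_pos {i : ℕ} {ω : F.S.Ω i} (hω : 0 < (F.S.P i).w ω) {c d : ℕ} (hcd : c ≤ d) (hd : d ≤ K) (k : Fin 2) :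
    |gp F i ω c d k - gp F i ω c c k| ≤ ((d : ℝ) - c) * (|F.C| + 2) * 2 ^ (d * F.n i) := by
  induction d, hcd using Nat.le_induction with
  | base => simp
  | succ d hcd ih =>
    have h1 := ih (by omega)
    have h2 := geo_pos1 F hω hcd hd k
    have hcd' : (0 : ℝ) ≤ (d : ℝ) - c := by
      have : (c : ℝ) ≤ d := by exact_mod_cast hcd
      linarith
    have h3 : ((d : ℝ) - c) * (|F.C| + 2) * 2 ^ (d * F.n i) ≤ ((d : ℝ) - c) * (|F.C| + 2) * 2 ^ ((d + 1) * F.n i) := by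
      refine mul_le_mul_of_nonneg_left ?_ (by positivity)
      exact pow_le_pow_right₀ (by norm_num) (Nat.mul_le_mul_right _ (Nat.le_succ _))
    have h4 := abs_sub_le (gp F i ω c (d + 1) k) (gp F i ω c d k) (gp F i ω c c k)
    have h5 : (((d + 1 : ℕ) : ℝ) - c) * (|F.C| + 2) * 2 ^ ((d + 1) * F.n i) =
        (|F.C| + 2) * 2 ^ ((d + 1) * F.n i) + ((d : ℝ) - c) * (|F.C| + 2) * 2 ^ ((d + 1) * F.n i) := by
      push_cast; ring
    rw [h5]
    linarith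


/-- the slopes are those of the paraboloid -/
theorem slp_eq (i : ℕ) (c : ℕ) (τ : Z2) (k : Fin 2) : F.s i c τ k = (τ k : ℝ) / 2 ^ (c * F.n i) := by
  rw [(F.slp i).cone]
  rfl

/-- slopes of the nodes of a flag: the slope of level `d + 1` is in the cell of level `d` -/
theorem geo_slc {i : ℕ} {ω : F.S.Ω i} (hω : 0 < (F.S.P i).w ω) {d : ℕ} (hd : d < K) (k : Fin 2) :
    0 ≤ F.s i (d + 1) (F.N (d + 1) i ω).τ k - F.s i d (F.N d i ω).τ k ∧
      F.s i (d + 1) (F.N (d + 1) i ω).τ k - F.s i d (F.N d i ω).τ k ≤ 1 / 2 ^ (d * F.n i) := by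
  rw [slp_eq, slp_eq]
  obtain ⟨h1, h2⟩ := geo_kid (F.step i ω hω d hd).1 k
  have h1' : (2 : ℝ) ^ F.n i * ((F.N d i ω).τ k : ℝ) ≤ ((F.N (d + 1) i ω).τ k : ℝ) := by exact_mod_cast h1
  have h2' : ((F.N (d + 1) i ω).τ k : ℝ) ≤ (2 : ℝ) ^ F.n i * (((F.N d i ω).τ k : ℝ) + 1) := by exact_mod_cast h2.le
  have e : (2 : ℝ) ^ ((d + 1) * F.n i) = 2 ^ F.n i * 2 ^ (d * F.n i) := by rw [← pow_add]; congr 1; ring
  have hp : (0 : ℝ) < 2 ^ F.n i := by positivity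
  have hq : (0 : ℝ) < 2 ^ (d * F.n i) := by positivity
  have e2 : ((F.N (d + 1) i ω).τ k : ℝ) / 2 ^ ((d + 1) * F.n i) - ((F.N d i ω).τ k : ℝ) / 2 ^ (d * F.n i) =
      (((F.N (d + 1) i ω).τ k : ℝ) - 2 ^ F.n i * ((F.N d i ω).τ k : ℝ)) / (2 ^ F.n i * 2 ^ (d * F.n i)) := by
    rw [e]; field_simp
  rw [e2]
  constructor
  · exact div_nonneg (by linarith) (by positivity)
  · rw [div_le_div_iff₀ (by positivity) hq]
    nlinarith

/-- `Φ = - x·(s' - s) + t (|s'|² - |s|²)/2` : change of the adapted coordinate -/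
noncomputable def Phi (x : Fin 2 → ℝ) (t : ℝ) (s s' : Fin 2 → ℝ) : ℝ :=
  ∑ k, (-(x k) * (s' k - s k) + t * (s' k ^ 2 - s k ^ 2) / 2)

theorem Phi_add (x : Fin 2 → ℝ) (t : ℝ) (s s' s'' : Fin 2 → ℝ) : Phi x t s s'' = Phi x t s s' + Phi x t s' s'' := by
  simp only [Phi, Fin.sum_univ_two]; ring

theorem Phi_self (x : Fin 2 → ℝ) (t : ℝ) (s : Fin 2 → ℝ) : Phi x t s s = 0 := by
  simp [Phi]

/-- change of `Φ` from the point `(x, t)` to `(x', t')` -/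
theorem Phi_sub (x x' : Fin 2 → ℝ) (t t' : ℝ) (s s' : Fin 2 → ℝ) : Phi x' t' s s' - Phi x t s s' =
    ∑ k, ((x k + (t' - t) * s k - x' k) * (s' k - s k) + (t' - t) * (s' k - s k) ^ 2 / 2) := by
  simp only [Phi, Fin.sum_univ_two]; ring

/-- the slope of the node of level `c` -/
noncomputable def gs (i : ℕ) (ω : F.S.Ω i) (c : ℕ) : Fin 2 → ℝ := fun k => F.s i c (F.N c i ω).τ k

/-- the position of the node of level `c` at the beginning of its time block -/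
noncomputable def gx (i : ℕ) (ω : F.S.Ω i) (c : ℕ) : Fin 2 → ℝ := fun k => 2 ^ (c * F.n i) * ((F.N c i ω).o k : ℝ)

/-- one step of `w` -/
theorem geo_w1 {i : ℕ} {ω : F.S.Ω i} (hω : 0 < (F.S.P i).w ω) {d : ℕ} (hd : d < K) :
    |2 ^ (F.h * F.n i) * ((F.N (d + 1) i ω).w : ℝ) - (2 ^ (F.h * F.n i) * ((F.N d i ω).w : ℝ) +
      Phi (fun k => 2 ^ ((d + 1) * F.n i) * (((F.N d i ω).o k / 2 ^ F.n i : ℤ) : ℝ)) (gt F i ω d) (gs F i ω d)
        (gs F i ω (d + 1)))| ≤ 2 ^ (F.h * F.n i) := by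
  have hw : (F.N (d + 1) i ω).w = (F.N d i ω).w + (F.s i).g d (F.N d i ω).τ (fun k => (F.N d i ω).o k / 2 ^ F.n i)
      (F.N d i ω).T (F.N (d + 1) i ω).τ := by
    have h := (F.step i ω hω d hd).2
    have h1 := congrArg Nd.w h
    exact h1
  rw [(F.slp i).cone] at hw
  have hg : (coneSl (F.n i) (F.s i).h).g d (F.N d i ω).τ (fun k => (F.N d i ω).o k / 2 ^ F.n i)
      (F.N d i ω).T (F.N (d + 1) i ω).τ = ⌊W.tl (F.n i) (F.s i).h ⟨(F.N d i ω).τ, fun k => (F.N d i ω).o k / 2 ^ F.n i,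
        (F.N d i ω).T⟩ (F.N (d + 1) i ω).τ⌋ := rfl
  rw [hg, F.hs i] at hw
  set x := W.tl (F.n i) F.h ⟨(F.N d i ω).τ, fun k => (F.N d i ω).o k / 2 ^ F.n i, (F.N d i ω).T⟩ (F.N (d + 1) i ω).τ with hx
  have hPhi : Phi (fun k => 2 ^ ((d + 1) * F.n i) * (((F.N d i ω).o k / 2 ^ F.n i : ℤ) : ℝ)) (gt F i ω d) (gs F i ω d)
        (gs F i ω (d + 1)) = 2 ^ (F.h * F.n i) * x := by
    have hH : (2 : ℝ) ^ (F.h * F.n i) ≠ 0 := by positivity
    rw [hx]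
    unfold W.tl
    rw [mul_div_cancel₀ _ hH]
    unfold Phi gs gt
    refine Finset.sum_congr rfl fun k _ => ?_
    rw [slp_eq, slp_eq]
    have e1 : (2 : ℝ) ^ ((d + 1) * F.n i) = 2 ^ F.n i * 2 ^ (d * F.n i) := by rw [← pow_add]; congr 1; ring
    have e2 : (2 : ℝ) ^ (2 * d * F.n i) = 2 ^ (d * F.n i) * 2 ^ (d * F.n i) := by rw [← pow_add]; congr 1; ring
    have e3 : (2 : ℝ) ^ (2 * F.n i + 1) = 2 * (2 ^ F.n i * 2 ^ F.n i) := by rw [pow_succ, two_mul, pow_add]; ring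
    have hp : (2 : ℝ) ^ F.n i ≠ 0 := by positivity
    have hq : (2 : ℝ) ^ (d * F.n i) ≠ 0 := by positivity
    rw [e1, e2, e3]
    field_simp
    ring
  rw [hPhi, hw]
  have f1 := Int.floor_le x
  have f2 := Int.lt_floor_add_one x
  have hH : (0 : ℝ) < 2 ^ (F.h * F.n i) := by positivity
  push_cast
  rw [abs_le]
  constructor <;> nlinarith

theorem aux1 {A H P2 δ dt E M r : ℝ} (hA : 0 < A) (h1 : 1 ≤ H) (hn : P2 ≤ H) (hP : 0 ≤ P2) (hδ0 : 0 ≤ δ)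
    (hδ : δ * A ≤ 1) (hE : |E| ≤ M * A) (hM : 0 ≤ M) (hr0 : 0 ≤ r) (hr1 : r ≤ P2) (hdt : |dt| ≤ A * A) :
    |(E + A * r) * δ + dt * δ ^ 2 / 2| ≤ (M + 3 / 2) * H := by
  have e1 : |E + A * r| ≤ (M + P2) * A := by
    refine (abs_add_le _ _).trans ?_
    rw [abs_of_nonneg (mul_nonneg hA.le hr0)]
    have := mul_le_mul_of_nonneg_left hr1 hA.le
    linarith
  have e2 : |(E + A * r) * δ| ≤ M * H + H := by
    rw [abs_mul, abs_of_nonneg hδ0]
    calc _ ≤ (M + P2) * A * δ := mul_le_mul_of_nonneg_right e1 hδ0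
      _ = (M + P2) * (δ * A) := by ring
      _ ≤ (M + P2) * 1 := mul_le_mul_of_nonneg_left hδ (by positivity)
      _ = M + P2 := mul_one _
      _ ≤ M * H + H := add_le_add (le_mul_of_one_le_right hM h1) hn
  have e3 : |dt * δ ^ 2 / 2| ≤ 1 / 2 * H := by
    rw [abs_div, abs_mul, abs_of_nonneg (sq_nonneg δ), abs_of_pos (by norm_num : (0:ℝ) < 2)]
    have b2 : |dt| * δ ^ 2 ≤ A * A * δ ^ 2 := mul_le_mul_of_nonneg_right hdt (sq_nonneg _)
    have b3 : A * A * δ ^ 2 ≤ 1 := by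
      have : A * A * δ ^ 2 = (δ * A) ^ 2 := by ring
      rw [this]
      exact pow_le_one₀ (by positivity) hδ
    linarith
  calc _ ≤ (M * H + H) + 1 / 2 * H := (abs_add_le _ _).trans (add_le_add e2 e3)
    _ = (M + 3 / 2) * H := by ring

/-- the change of `Φ` between the corner of the piece of level `d` and the point `(x_c, t_c)` -/
theorem geo_w2 {i : ℕ} {ω : F.S.Ω i} (hω : 0 < (F.S.P i).w ω) {c d : ℕ} (hcd : c ≤ d) (hd : d < K) :
    |Phi (fun k => 2 ^ ((d + 1) * F.n i) * (((F.N d i ω).o k / 2 ^ F.n i : ℤ) : ℝ)) (gt F i ω d) (gs F i ω d)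
        (gs F i ω (d + 1)) - Phi (gx F i ω c) (gt F i ω c) (gs F i ω d) (gs F i ω (d + 1))| ≤
        (2 * K * (|F.C| + 2) + 3) * 2 ^ (F.h * F.n i) := by
  rw [Phi_sub]
  have hcd0 : (c : ℝ) ≤ d := by exact_mod_cast hcd
  have hdK : (d : ℝ) ≤ K := by exact_mod_cast (by omega : d ≤ K)
  have hc0 : (0 : ℝ) ≤ c := Nat.cast_nonneg c
  have hC := abs_nonneg F.C
  obtain ⟨t0, t1⟩ := geo_t F hω hcd (by omega : d ≤ K)
  have hb : ∀ k, |(gx F i ω c k + (gt F i ω d - gt F i ω c) * gs F i ω d k -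
      2 ^ ((d + 1) * F.n i) * (((F.N d i ω).o k / 2 ^ F.n i : ℤ) : ℝ)) * (gs F i ω (d + 1) k - gs F i ω d k) +
      (gt F i ω d - gt F i ω c) * (gs F i ω (d + 1) k - gs F i ω d k) ^ 2 / 2| ≤
      (K * (|F.C| + 2) + 3 / 2) * 2 ^ (F.h * F.n i) := by
    intro k
    have hp := geo_pos F hω hcd (by omega : d ≤ K) k
    obtain ⟨s1, s2⟩ := geo_slc F hω hd k
    have hdiv := geo_mod ((F.N d i ω).o k) (F.n i)
    have hr0 : (0 : ℝ) ≤ (((F.N d i ω).o k % 2 ^ F.n i : ℤ) : ℝ) := by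
      exact_mod_cast Int.emod_nonneg _ (by positivity)
    have hr1 : (((F.N d i ω).o k % 2 ^ F.n i : ℤ) : ℝ) ≤ 2 ^ F.n i := by
      exact_mod_cast (Int.emod_lt_of_pos ((F.N d i ω).o k) (by positivity : (0 : ℤ) < 2 ^ F.n i)).le
    have hA0 : (0 : ℝ) < 2 ^ (d * F.n i) := by positivity
    have hAB : (2 : ℝ) ^ ((d + 1) * F.n i) = 2 ^ F.n i * 2 ^ (d * F.n i) := by rw [← pow_add]; congr 1; ring
    have hAA : (2 : ℝ) ^ (2 * d * F.n i) = 2 ^ (d * F.n i) * 2 ^ (d * F.n i) := by rw [← pow_add]; congr 1; ring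
    have hn : (2 : ℝ) ^ F.n i ≤ 2 ^ (F.h * F.n i) :=
      pow_le_pow_right₀ (by norm_num) (Nat.le_mul_of_pos_left _ (by have := F.h2; omega))
    have h1n : (1 : ℝ) ≤ 2 ^ (F.h * F.n i) := one_le_pow₀ (by norm_num)
    have s2' : (gs F i ω (d + 1) k - gs F i ω d k) * 2 ^ (d * F.n i) ≤ 1 := by
      rw [le_div_iff₀ hA0] at s2
      exact s2
    have e4 : gp F i ω c d k - gp F i ω c c k =
        -(gx F i ω c k + (gt F i ω d - gt F i ω c) * gs F i ω d k - 2 ^ (d * F.n i) * ((F.N d i ω).o k : ℝ)) := by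
      unfold gp gx gs
      ring
    rw [e4, abs_neg] at hp
    have hp3 : ((d : ℝ) - c) * (|F.C| + 2) * 2 ^ (d * F.n i) ≤ (K * (|F.C| + 2)) * 2 ^ (d * F.n i) :=
      mul_le_mul_of_nonneg_right (mul_le_mul_of_nonneg_right (by linarith) (by linarith)) hA0.le
    have e5 : gx F i ω c k + (gt F i ω d - gt F i ω c) * gs F i ω d k -
        2 ^ ((d + 1) * F.n i) * (((F.N d i ω).o k / 2 ^ F.n i : ℤ) : ℝ) =
        (gx F i ω c k + (gt F i ω d - gt F i ω c) * gs F i ω d k - 2 ^ (d * F.n i) * ((F.N d i ω).o k : ℝ)) +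
          2 ^ (d * F.n i) * (((F.N d i ω).o k % 2 ^ F.n i : ℤ) : ℝ) := by
      rw [hdiv, hAB]; ring
    rw [e5]
    exact aux1 hA0 h1n hn (by positivity) s1 s2' (hp.trans hp3) (by positivity) hr0 hr1
      (by rw [abs_sub_comm, abs_of_nonneg t0]; exact t1.trans_eq hAA)
  rw [Fin.sum_univ_two]
  calc _ ≤ (K * (|F.C| + 2) + 3 / 2) * 2 ^ (F.h * F.n i) + (K * (|F.C| + 2) + 3 / 2) * 2 ^ (F.h * F.n i) :=
        (abs_add_le _ _).trans (add_le_add (hb 0) (hb 1))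
    _ = _ := by ring

/-- **consistency of `w` along a flag** -/
theorem geo_w {i : ℕ} {ω : F.S.Ω i} (hω : 0 < (F.S.P i).w ω) {c d : ℕ} (hcd : c ≤ d) (hd : d ≤ K) :
    |2 ^ (F.h * F.n i) * ((F.N d i ω).w : ℝ) - (2 ^ (F.h * F.n i) * ((F.N c i ω).w : ℝ) +
      Phi (gx F i ω c) (gt F i ω c) (gs F i ω c) (gs F i ω d))| ≤
      ((d : ℝ) - c) * (2 * K * (|F.C| + 2) + 4) * 2 ^ (F.h * F.n i) := by
  induction d, hcd using Nat.le_induction with
  | base =>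
    rw [Phi_self]
    simp
  | succ d hcd ih =>
    have h1 := ih (by omega)
    have h2 := geo_w1 F hω hd
    have h3 := geo_w2 F hω hcd hd
    rw [Phi_add _ _ _ (gs F i ω d) _]
    have h4 : (((d + 1 : ℕ) : ℝ) - c) * (2 * K * (|F.C| + 2) + 4) * 2 ^ (F.h * F.n i) =
        ((d : ℝ) - c) * (2 * K * (|F.C| + 2) + 4) * 2 ^ (F.h * F.n i) + 2 ^ (F.h * F.n i) +
          (2 * K * (|F.C| + 2) + 3) * 2 ^ (F.h * F.n i) := by
      push_cast; ring
    rw [h4]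
    rw [abs_le] at h1 h2 h3 ⊢
    constructor <;> linarith [h1.1, h1.2, h2.1, h2.2, h3.1, h3.2]

/-- **geometry of a flag**, all statements with one constant -/
theorem e5Geo (F : Flg K) : ∃ C' : ℝ, 1 ≤ C' ∧ ∀ i ω, 0 < (F.S.P i).w ω → ∀ c d, c ≤ d → d ≤ K →
    (F.N c i ω).T / 2 ^ (2 * (d - c) * F.n i) = (F.N d i ω).T ∧
    (∀ k, (F.N d i ω).τ k / 2 ^ ((d - c) * F.n i) = (F.N c i ω).τ k) ∧
    Cap (F.n i) d (F.N d i ω).τ ∧
    (∀ k, |F.s i d (F.N d i ω).τ k - F.s i c (F.N c i ω).τ k| ≤ C' / 2 ^ (c * F.n i)) ∧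
    (∀ k, |(2:ℝ) ^ (c * F.n i) * ((F.N c i ω).o k : ℝ) - (2 ^ (d * F.n i) * ((F.N d i ω).o k : ℝ) +
      (((F.N c i ω).T : ℝ) * 2 ^ (2 * c * F.n i) - ((F.N d i ω).T : ℝ) * 2 ^ (2 * d * F.n i)) *
        F.s i d (F.N d i ω).τ k)| ≤ C' * 2 ^ (d * F.n i)) ∧
    (0 ≤ ((F.N c i ω).T : ℝ) * 2 ^ (2 * c * F.n i) - ((F.N d i ω).T : ℝ) * 2 ^ (2 * d * F.n i)) ∧
    (((F.N c i ω).T : ℝ) * 2 ^ (2 * c * F.n i) - ((F.N d i ω).T : ℝ) * 2 ^ (2 * d * F.n i) ≤ 2 ^ (2 * d * F.n i)) ∧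
    |2 ^ (F.h * F.n i) * ((F.N d i ω).w : ℝ) - (2 ^ (F.h * F.n i) * ((F.N c i ω).w : ℝ) +
      ∑ k, (-(2 ^ (c * F.n i) * ((F.N c i ω).o k : ℝ)) * (F.s i d (F.N d i ω).τ k - F.s i c (F.N c i ω).τ k) +
        ((F.N c i ω).T : ℝ) * 2 ^ (2 * c * F.n i) *
          (F.s i d (F.N d i ω).τ k ^ 2 - F.s i c (F.N c i ω).τ k ^ 2) / 2))| ≤ C' * 2 ^ (F.h * F.n i) := by
  have hC := abs_nonneg F.C
  have hKK : (0 : ℝ) ≤ K := Nat.cast_nonneg K
  have q1 : 0 ≤ (K : ℝ) * (2 * K * (|F.C| + 2) + 4) := by positivity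
  have q0 : 0 ≤ (K : ℝ) * (|F.C| + 2) := by positivity
  refine ⟨1 + K * (|F.C| + 2) + K * (2 * K * (|F.C| + 2) + 4), by linarith, ?_⟩
  intro i ω hω c d hcd hd
  have hK : (d : ℝ) - c ≤ K := by
    have h1 : (d : ℝ) ≤ K := by exact_mod_cast hd
    have h2 : (0 : ℝ) ≤ c := Nat.cast_nonneg c
    linarith
  have hcd' : (0 : ℝ) ≤ (d : ℝ) - c := by
    have : (c : ℝ) ≤ d := by exact_mod_cast hcd
    linarith
  refine ⟨geo_T F hω hcd hd, geo_τ F hω hcd hd, geo_cap F hω hd, ?_, ?_, (geo_t F hω hcd hd).1, (geo_t F hω hcd hd).2, ?_⟩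
  · intro k
    refine (geo_slp F hω hcd hd k).trans (div_le_div_of_nonneg_right ?_ (by positivity))
    nlinarith [mul_le_mul_of_nonneg_right hK hC]
  · intro k
    have h1 := geo_pos F hω hcd hd k
    have h2 : gp F i ω c c k = 2 ^ (c * F.n i) * ((F.N c i ω).o k : ℝ) := by unfold gp; ring
    rw [h2] at h1
    have h3 := (abs_sub_comm _ _).trans_le h1
    refine h3.trans (mul_le_mul_of_nonneg_right ?_ (by positivity))
    nlinarith [mul_le_mul_of_nonneg_right hK (by linarith : (0 : ℝ) ≤ |F.C| + 2)]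
  · have h1 := geo_w F hω hcd hd
    refine h1.trans (mul_le_mul_of_nonneg_right ?_ (by positivity))
    have q2 : ((d : ℝ) - c) * (2 * K * (|F.C| + 2) + 4) ≤ K * (2 * K * (|F.C| + 2) + 4) :=
      mul_le_mul_of_nonneg_right hK (by positivity)
    have q3 : 0 ≤ (K : ℝ) * (|F.C| + 2) := by positivity
    linarith

end Vale.Agent.P106.WGeo
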