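import Vale.Agent.P106.W.Split
import Vale.Agent.P106.K.Defs

/-! # P106 / W : constants of the box class (helper117)

`const_thick` : the rays of a box of class `c` (all constants relaxed to `c`) are covered by `m(c)` boxes of the strict class
`1/8`, of volume `≤ C' vol`.  `const` : the same for planks with `H ≤ r²`, where `|κ| H, |α| H ≤ C u1` is automatic. -/

set_option autoImplicit false

namespace Vale.Agent.P106.W

open Vale.Agent.P122.C2 (Z2 par kids Cap fw fn)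
open Vale.Agent.P106.K

/-- volume of a small box inside a large one, with constants -/
theorem vol_le' {r H a1 a2 b1 b2 M A : ℝ} (hH : 0 < H) (hr : 0 < r) (ha2 : 0 ≤ a2) (hb1 : 0 ≤ b1) (hb2 : 0 ≤ b2)
    (hM : 0 ≤ M) (hA : 1 ≤ A) (h : a1 * a2 ≤ M * (b1 * b2)) (h2 : a2 ≤ A * b2) :
    a1 * a2 / r ^ 2 * max 1 (a2 ^ 2 / H) ≤ M * A ^ 2 * (b1 * b2 / r ^ 2 * max 1 (b2 ^ 2 / H)) := by
  have e : M * A ^ 2 * (b1 * b2 / r ^ 2 * max 1 (b2 ^ 2 / H)) = M * (b1 * b2) / r ^ 2 * (A ^ 2 * max 1 (b2 ^ 2 / H)) := by ring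
  rw [e]
  have h3 : max 1 (a2 ^ 2 / H) ≤ A ^ 2 * max 1 (b2 ^ 2 / H) := by
    have hA2 : 1 ≤ A ^ 2 := one_le_pow₀ hA
    refine max_le ?_ ?_
    · calc (1 : ℝ) = 1 * 1 := (one_mul 1).symm
        _ ≤ A ^ 2 * max 1 (b2 ^ 2 / H) := mul_le_mul hA2 (le_max_left _ _) zero_le_one (by positivity)
    · calc a2 ^ 2 / H ≤ (A * b2) ^ 2 / H := div_le_div_of_nonneg_right (pow_le_pow_left₀ ha2 h2 2) hH.le
        _ = A ^ 2 * (b2 ^ 2 / H) := by ring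
        _ ≤ A ^ 2 * max 1 (b2 ^ 2 / H) := mul_le_mul_of_nonneg_left (le_max_right _ _) (by positivity)
  exact mul_le_mul (div_le_div_of_nonneg_right h (by positivity)) h3 (by positivity) (by positivity)

/-- the cell of a ray in the grid of the box `B` -/
noncomputable def keyc (B : Cbx) (m D : ℕ) (H : ℝ) (l : Ry) : (Fin 2 → ℤ) × (Fin 2 → ℤ) × ℤ :=
  (fun k => ⌊4 * m * D ^ 2 * (l.y k - B.p k) / B.u2⌋, fun k => ⌊4 * m * D ^ 2 * (l.s k - B.v k) / B.u2⌋,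
    ⌊2 * D ^ 2 * B.zz l.y l.s l.z / max (B.u2 ^ 2) H⌋)

/-- the values of `keyc` -/
noncomputable def keysc (m D : ℕ) : Finset ((Fin 2 → ℤ) × (Fin 2 → ℤ) × ℤ) :=
  (Fintype.piFinset fun _ => Finset.Icc (-((4 * m ^ 2 * D ^ 2 : ℕ) : ℤ)) ((4 * m ^ 2 * D ^ 2 : ℕ) : ℤ)) ×ˢ
    (Fintype.piFinset fun _ => Finset.Icc (-((4 * m ^ 2 * D ^ 2 : ℕ) : ℤ)) ((4 * m ^ 2 * D ^ 2 : ℕ) : ℤ)) ×ˢ
      Finset.Icc (-((2 * m * D ^ 2 : ℕ) : ℤ)) ((2 * m * D ^ 2 : ℕ) : ℤ)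

theorem floor_memc {A x c : ℝ} {a m : ℕ} (hm : 0 < m) (hA : 0 < A) (hc : c ≤ m) (h : |x| ≤ c * A) :
    ⌊(a : ℝ) * x / A⌋ ∈ Finset.Icc (-((m * a : ℕ) : ℤ)) ((m * a : ℕ) : ℤ) := by
  have hm0 : (0 : ℝ) < m := by exact_mod_cast hm
  have h1 : |x| ≤ m * A := h.trans (mul_le_mul_of_nonneg_right hc hA.le)
  have h2 := floor_mem (m := m * a) (A := m * A) (x := x) (by positivity) h1
  have e : ((m * a : ℕ) : ℝ) * x / (m * A) = (a : ℝ) * x / A := by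
    push_cast
    field_simp
  rw [e] at h2
  exact h2

theorem keyc_mem {c : ℝ} {B : Cbx} {m D : ℕ} {H : ℝ} {l : Ry} (hm : 0 < m) (hc : c ≤ m) (h2 : 0 < B.u2)
    (hin : Bin c B H l) : keyc B m D H l ∈ keysc m D := by
  obtain ⟨hy, hq, hz, -, -⟩ := hin
  have hM : 0 < max (B.u2 ^ 2) H := lt_max_of_lt_left (by positivity)
  unfold keysc keyc
  simp only [Finset.mem_product, Fintype.mem_piFinset]
  have e1 : ((4 * m * D ^ 2 : ℕ) : ℝ) = 4 * m * D ^ 2 := by push_cast; ring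
  have e2 : ((2 * D ^ 2 : ℕ) : ℝ) = 2 * D ^ 2 := by push_cast; ring
  have e3 : m * (4 * m * D ^ 2) = 4 * m ^ 2 * D ^ 2 := by ring
  have e4 : m * (2 * D ^ 2) = 2 * m * D ^ 2 := by ring
  refine ⟨fun k => ?_, fun k => ?_, ?_⟩
  · have := floor_memc (a := 4 * m * D ^ 2) hm h2 hc (hy k)
    rwa [e1, e3] at this
  · have := floor_memc (a := 4 * m * D ^ 2) hm h2 hc (hq k)
    rwa [e1, e3] at this
  · have := floor_memc (a := 2 * D ^ 2) hm hM hc hz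
    rwa [e2, e4] at this

/-- distances inside a cell -/
theorem cell_dist {c : ℝ} {B : Cbx} {H : ℝ} (hu2 : 0 < B.u2) {m D : ℕ} (hm0 : (0 : ℝ) < m) (hcm : c ≤ m) (hc0 : 0 < c)
    (hD0 : (0 : ℝ) < D) {l' : Ry} (hin : Bin c B H l') (l : Ry) (hk : keyc B m D H l = keyc B m D H l') :
      (∀ k, |l.y k - l'.y k| ≤ B.u2 / (4 * m * D ^ 2)) ∧ (∀ k, |l.s k - l'.s k| ≤ B.u2 / (4 * m * D ^ 2)) ∧
      |l.z + ∑ k, l.y k * (l.s k - l'.s k) - l'.z| ≤ max (B.u2 ^ 2) H / D ^ 2 := by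
  have hM : 0 < max (B.u2 ^ 2) H := lt_max_of_lt_left (by positivity)
  unfold keyc at hk
  simp only [Prod.mk.injEq] at hk
  obtain ⟨k1, k2, k3⟩ := hk
  have c1 : ∀ k, |l.y k - l'.y k| ≤ B.u2 / (4 * m * D ^ 2) := fun k => by
    have := floor_close hu2 (by positivity) (congrFun k1 k)
    rwa [sub_sub_sub_cancel_right] at this
  have c2 : ∀ k, |l.s k - l'.s k| ≤ B.u2 / (4 * m * D ^ 2) := fun k => by
    have := floor_close hu2 (by positivity) (congrFun k2 k)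
    rwa [sub_sub_sub_cancel_right] at this
  refine ⟨c1, c2, ?_⟩
  have c3 := floor_close hM (by positivity) k3
  have hv : ∀ k, |l'.s k - B.v k| ≤ c * B.u2 := hin.2.1
  have c4 : |∑ k, (l.y k - l'.y k) * (l'.s k - B.v k)| ≤ max (B.u2 ^ 2) H / (2 * D ^ 2) := by
    rw [Fin.sum_univ_two]
    have a0 : ∀ k, |(l.y k - l'.y k) * (l'.s k - B.v k)| ≤ B.u2 ^ 2 / (4 * D ^ 2) := fun k => by
      rw [abs_mul]
      calc |l.y k - l'.y k| * |l'.s k - B.v k| ≤ B.u2 / (4 * m * D ^ 2) * (c * B.u2) :=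
            mul_le_mul (c1 k) (hv k) (abs_nonneg _) (by positivity)
        _ = B.u2 ^ 2 / (4 * D ^ 2) * (c / m) := by field_simp
        _ ≤ B.u2 ^ 2 / (4 * D ^ 2) * 1 := by
          refine mul_le_mul_of_nonneg_left ?_ (by positivity)
          rw [div_le_one hm0]; exact hcm
        _ = B.u2 ^ 2 / (4 * D ^ 2) := mul_one _
    calc |(l.y 0 - l'.y 0) * (l'.s 0 - B.v 0) + (l.y 1 - l'.y 1) * (l'.s 1 - B.v 1)|
        ≤ B.u2 ^ 2 / (4 * D ^ 2) + B.u2 ^ 2 / (4 * D ^ 2) := (abs_add_le _ _).trans (add_le_add (a0 0) (a0 1))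
      _ = B.u2 ^ 2 / (2 * D ^ 2) := by field_simp; ring
      _ ≤ max (B.u2 ^ 2) H / (2 * D ^ 2) := div_le_div_of_nonneg_right (le_max_left _ _) (by positivity)
  rw [B.zz_rec l'.y l'.s l.y l.s l'.z l.z]
  calc |B.zz l.y l.s l.z - B.zz l'.y l'.s l'.z - ∑ k, (l.y k - l'.y k) * (l'.s k - B.v k)|
      ≤ |B.zz l.y l.s l.z - B.zz l'.y l'.s l'.z| + |∑ k, (l.y k - l'.y k) * (l'.s k - B.v k)| := abs_sub _ _
    _ ≤ max (B.u2 ^ 2) H / (2 * D ^ 2) + max (B.u2 ^ 2) H / (2 * D ^ 2) := add_le_add c3 c4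
    _ = max (B.u2 ^ 2) H / D ^ 2 := by field_simp; ring

theorem max_div_le {u H D : ℝ} (hH : 0 < H) (hD : 1 ≤ D) : max (u ^ 2) H / D ^ 2 ≤ max ((u / D) ^ 2) H := by
  have hD0 : 0 < D := by linarith
  have hD2 : 0 < D ^ 2 := by positivity
  rw [div_le_iff₀ hD2]
  refine max_le ?_ ?_
  · have : u ^ 2 = (u / D) ^ 2 * D ^ 2 := by field_simp
    calc u ^ 2 = (u / D) ^ 2 * D ^ 2 := this
      _ ≤ _ := mul_le_mul_of_nonneg_right (le_max_left _ _) hD2.le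
  · calc H = H * 1 := (mul_one H).symm
      _ ≤ max ((u / D) ^ 2) H * D ^ 2 :=
        mul_le_mul (le_max_right _ _) (by nlinarith) zero_le_one (le_trans hH.le (le_max_right _ _))

/-- the new normal does not vanish when the slab is much thinner than the cap -/
theorem normal {c : ℝ} (hc1 : 1 ≤ c) {B : Cbx} {r H D : ℝ} (hB : Bok c B r) (hD : 16 * c ^ 2 ≤ D)
    (hcase : 4 * c * B.u1 ≤ B.u2 / D) {l' : Ry} (hin : Bin c B H l') :
    ∃ (L θ' : ℝ), 1 / 2 ≤ L ∧ B.nn l'.y l'.s 0 = -(L * Real.sin θ') ∧ B.nn l'.y l'.s 1 = L * Real.cos θ' := by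
  obtain ⟨hu1, hB1, hB2, hB3, hB4, hB5⟩ := hB
  have hc0 : 0 < c := by linarith
  have hu2 : 0 < B.u2 := by
    rcases lt_or_ge 0 B.u2 with h | h
    · exact h
    · exact absurd (mul_nonpos_of_nonneg_of_nonpos hc0.le h) (by linarith)
  have hD0 : 0 < D := by nlinarith
  obtain ⟨-, -, -, hg0, hg1⟩ := hin
  have hg0' : |B.g0 l'.y l'.s l'.z| ≤ c * B.u1 := hg0
  have hg1' : |B.g1 l'.y l'.s l'.z| ≤ c * B.u1 := hg1
  have hsq := B.nn_sq l'.y l'.s l'.z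
  have hsmall : c * (c * B.u1) ≤ B.u2 / 48 := by
    have h1 : 4 * c * B.u1 * D ≤ B.u2 := by rwa [le_div_iff₀ hD0] at hcase
    have h2 : 4 * c * B.u1 * (16 * c ^ 2) ≤ 4 * c * B.u1 * D := mul_le_mul_of_nonneg_left hD (by positivity)
    have h3 : c * (c * B.u1) ≤ c * B.u1 * c ^ 2 := by
      have : c * (c * B.u1) * 1 ≤ c * (c * B.u1) * c := mul_le_mul_of_nonneg_left hc1 (by positivity)
      linarith [this, (by ring : c * (c * B.u1) * c = c * B.u1 * c ^ 2)]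
    linarith
  have k0 : ∀ a g : ℝ, |a| * B.u2 ≤ c → |g| ≤ c * B.u1 → |a * g| ≤ 1 / 48 := by
    intro a g ha hg
    rw [abs_mul]
    have h1 : |a| * |g| * B.u2 ≤ c * (c * B.u1) := by
      calc |a| * |g| * B.u2 = (|a| * B.u2) * |g| := by ring
        _ ≤ c * (c * B.u1) := mul_le_mul ha hg (abs_nonneg _) hc0.le
    have h2 : |a| * |g| * B.u2 ≤ 1 / 48 * B.u2 := by linarith
    exact le_of_mul_le_mul_right h2 hu2
  have k1 := k0 _ _ hB5 hg1'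
  have k2 := k0 _ _ hB4 hg0'
  set X := B.nn l'.y l'.s 0 ^ 2 + B.nn l'.y l'.s 1 ^ 2 with hX
  have hXlow : 3 / 4 ≤ X := by
    rw [hsq]
    have h1 := (abs_le.1 k1).1
    have h2 := (abs_le.1 k2).2
    have e : 1 + 2 * B.κ * B.g1 l'.y l'.s l'.z - 4 * B.α * B.g0 l'.y l'.s l'.z =
      1 + 2 * (B.κ * B.g1 l'.y l'.s l'.z) - 4 * (B.α * B.g0 l'.y l'.s l'.z) := by ring
    rw [e]
    linarith
  have hX0 : 0 < X := by linarith
  have hL0 : 0 < Real.sqrt X := Real.sqrt_pos.2 hX0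
  have hLs : Real.sqrt X ^ 2 = X := Real.sq_sqrt hX0.le
  have hL : (1 : ℝ) / 2 ≤ Real.sqrt X := Real.le_sqrt_of_sq_le (by norm_num; linarith)
  obtain ⟨θ', hc', hs'⟩ := exists_angle (x := B.nn l'.y l'.s 1 / Real.sqrt X) (y := -(B.nn l'.y l'.s 0) / Real.sqrt X) (by
    rw [div_pow, div_pow, hLs, ← add_div, div_eq_one_iff_eq hX0.ne', hX]; ring)
  refine ⟨Real.sqrt X, θ', hL, ?_, ?_⟩
  · rw [hs']; field_simp
  · rw [hc']; field_simp

/-- membership in the recentred slab -/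
theorem rec_in {c : ℝ} {B : Cbx} {H L θ' w1 w2 : ℝ} (hc0 : 0 < c) (hu1 : 0 < B.u1) (hL : 1 / 2 ≤ L) (hw : 4 * c * B.u1 ≤ w1)
    {l l' : Ry} (hin : Bin c B H l') (hl : Bin c B H l) (n0 : B.nn l'.y l'.s 0 = -(L * Real.sin θ'))
    (n1 : B.nn l'.y l'.s 1 = L * Real.cos θ') (h1 : ∀ k, |l.y k - l'.y k| ≤ w2) (h2 : ∀ k, |l.s k - l'.s k| ≤ w2)
    (h3 : |l.z + ∑ k, l.y k * (l.s k - l'.s k) - l'.z| ≤ max (w2 ^ 2) H) :
    (Cbx.mk θ' w1 w2 (B.κ / L) (B.α / L) l'.y l'.s l'.z).In H l.y l.s l.z := by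
  obtain ⟨-, -, -, hg0, hg1⟩ := hin
  obtain ⟨-, -, -, hh0, hh1⟩ := hl
  have hg0' : |B.g0 l'.y l'.s l'.z| ≤ c * B.u1 := hg0
  have hg1' : |B.g1 l'.y l'.s l'.z| ≤ c * B.u1 := hg1
  have hh0' : |B.g0 l.y l.s l.z| ≤ c * B.u1 := hh0
  have hh1' : |B.g1 l.y l.s l.z| ≤ c * B.u1 := hh1
  have hL0 : 0 < L := by linarith
  have hcu : 0 < c * B.u1 := by positivity
  refine ⟨h1, h2, h3, ?_, ?_⟩
  · have e : fn θ' (l.y - l'.y) + B.κ / L * (l.z + ∑ k, l.y k * (l.s k - l'.s k) - l'.z) -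
        B.α / L * ∑ k, (l.y k - l'.y k) ^ 2 = (B.g0 l.y l.s l.z - B.g0 l'.y l'.s l'.z) / L := by
      rw [B.g0_rec l'.y l'.s l.y l.s l'.z l.z, eq_div_iff hL0.ne']
      simp only [Fin.sum_univ_two, n0, n1, fn, Pi.sub_apply]
      field_simp
      ring
    show |fn θ' (l.y - l'.y) + B.κ / L * (l.z + ∑ k, l.y k * (l.s k - l'.s k) - l'.z) -
        B.α / L * ∑ k, (l.y k - l'.y k) ^ 2| ≤ w1
    rw [e, abs_div, abs_of_pos hL0, div_le_iff₀ hL0]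
    have h5 := abs_sub (B.g0 l.y l.s l.z) (B.g0 l'.y l'.s l'.z)
    have h6 : 4 * c * B.u1 * (1 / 2) ≤ w1 * L := mul_le_mul hw hL (by norm_num) (by nlinarith)
    linarith
  · have e : fn θ' (l.s - l'.s) + B.κ / L * (∑ k, (l.s k - l'.s k) ^ 2) / 2 +
        2 * (B.α / L) * (l.z + ∑ k, l'.y k * (l.s k - l'.s k) - l'.z) = (B.g1 l.y l.s l.z - B.g1 l'.y l'.s l'.z) / L := by
      rw [B.g1_rec l'.y l'.s l.y l.s l'.z l.z, eq_div_iff hL0.ne']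
      simp only [Fin.sum_univ_two, n0, n1, fn, Pi.sub_apply]
      field_simp
      ring
    show |fn θ' (l.s - l'.s) + B.κ / L * (∑ k, (l.s k - l'.s k) ^ 2) / 2 +
        2 * (B.α / L) * (l.z + ∑ k, l'.y k * (l.s k - l'.s k) - l'.z)| ≤ w1
    rw [e, abs_div, abs_of_pos hL0, div_le_iff₀ hL0]
    have h5 := abs_sub (B.g1 l.y l.s l.z) (B.g1 l'.y l'.s l'.z)
    have h6 : 4 * c * B.u1 * (1 / 2) ≤ w1 * L := mul_le_mul hw hL (by norm_num) (by nlinarith)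
    linarith

/-- the strict box of a cell, slab case -/
theorem cutc_slab {c : ℝ} (hc1 : 1 ≤ c) {B : Cbx} {r H : ℝ} (hr : 0 < r) (hH : 0 < H) (hB : Bok c B r)
    (hα : |B.α| * H ≤ c * B.u1) (hκ : |B.κ| * H ≤ c * B.u1) {D : ℝ} (hD : 16 * c ^ 2 ≤ D)
    (hcase : 4 * c * B.u1 ≤ B.u2 / D) {l' : Ry} (hin : Bin c B H l') :
    ∃ (L θ' : ℝ), (Cbx.mk θ' (4 * c * B.u1) (B.u2 / D) (B.κ / L) (B.α / L) l'.y l'.s l'.z).ok (1 / 8) r H ∧
      (Cbx.mk θ' (4 * c * B.u1) (B.u2 / D) (B.κ / L) (B.α / L) l'.y l'.s l'.z).vol r H ≤ 4 * c ^ 7 * B.vol r H ∧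
      ∀ l : Ry, Bin c B H l → (∀ k, |l.y k - l'.y k| ≤ B.u2 / D) → (∀ k, |l.s k - l'.s k| ≤ B.u2 / D) →
        |l.z + ∑ k, l.y k * (l.s k - l'.s k) - l'.z| ≤ max ((B.u2 / D) ^ 2) H →
        (Cbx.mk θ' (4 * c * B.u1) (B.u2 / D) (B.κ / L) (B.α / L) l'.y l'.s l'.z).In H l.y l.s l.z := by
  obtain ⟨L, θ', hL, n0, n1⟩ := normal hc1 hB hD hcase hin
  obtain ⟨hu1, hB1, hB2, hB3, hB4, hB5⟩ := hB
  have hc0 : 0 < c := by linarith
  have hL0 : 0 < L := by linarith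
  have hu2 : 0 < B.u2 := by
    rcases lt_or_ge 0 B.u2 with h | h
    · exact h
    · exact absurd (mul_nonpos_of_nonneg_of_nonpos hc0.le h) (by linarith)
  have hcc : c ≤ c ^ 2 := by nlinarith
  have hD0 : 0 < D := by nlinarith
  have hDc : 16 * c ≤ D := by linarith
  have hD1 : 1 ≤ D := by linarith
  have hcu : 0 < c * B.u1 := by positivity
  have q1 : ∀ x : ℝ, |x| * B.u2 ≤ c → |x / L| * (B.u2 / D) ≤ 1 / 8 := by
    intro x hx
    rw [abs_div, abs_of_pos hL0]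
    have e : |x| / L * (B.u2 / D) = (|x| * B.u2) / (L * D) := by field_simp
    rw [e, div_le_iff₀ (by positivity)]
    have : 1 / 2 * (16 * c) ≤ L * D := mul_le_mul hL hDc (by positivity) hL0.le
    linarith
  have q2 : ∀ x : ℝ, |x| * H ≤ c * B.u1 → |x / L| * H ≤ 4 * c * B.u1 := by
    intro x hx
    rw [abs_div, abs_of_pos hL0]
    have e : |x| / L * H = (|x| * H) / L := by ring
    rw [e, div_le_iff₀ hL0]
    have : 4 * c * B.u1 * (1 / 2) ≤ 4 * c * B.u1 * L := mul_le_mul_of_nonneg_left hL (by positivity)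
    linarith
  refine ⟨L, θ', ⟨?_, hcase, ?_, q1 _ hB4, q1 _ hB5, q2 _ hα, q2 _ hκ⟩, ?_, ?_⟩
  · show r ≤ 4 * c * B.u1
    linarith
  · show B.u2 / D ≤ 1
    rw [div_le_one hD0]
    linarith
  · show 4 * c * B.u1 * (B.u2 / D) / r ^ 2 * max 1 ((B.u2 / D) ^ 2 / H) ≤
      4 * c ^ 7 * (B.u1 * B.u2 / r ^ 2 * max 1 (B.u2 ^ 2 / H))
    have hle : B.u2 / D ≤ 1 * B.u2 := by rw [one_mul]; exact div_le_self hu2.le hD1
    have h5 : 4 * c * B.u1 * (B.u2 / D) ≤ 4 * c * (B.u1 * B.u2) := by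
      have : 4 * c * B.u1 * (B.u2 / D) ≤ 4 * c * B.u1 * B.u2 :=
        mul_le_mul_of_nonneg_left (div_le_self hu2.le hD1) (by positivity)
      linarith
    refine (vol_le' hH hr (by positivity) hu1.le hu2.le (by positivity) le_rfl h5 hle).trans ?_
    have h6 : 4 * c * (1:ℝ) ^ 2 ≤ 4 * c ^ 7 := by
      have h7 : c * 1 ≤ c * c ^ 6 := mul_le_mul_of_nonneg_left (one_le_pow₀ hc1) hc0.le
      have e : c * c ^ 6 = c ^ 7 := by ring
      linarith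
    exact mul_le_mul_of_nonneg_right h6 (B.vol_nonneg r H hu1.le hu2.le)
  · intro l hl h1 h2 h3
    exact rec_in hc0 hu1 hL le_rfl hin hl n0 n1 h1 h2 h3

/-- the strict box of a cell, ball case -/
theorem cutc_ball {c : ℝ} (hc1 : 1 ≤ c) {B : Cbx} {r H : ℝ} (hr : 0 < r) (hr1 : r ≤ 1) (hH : 0 < H) (hB : Bok c B r)
    {D : ℝ} (hD : 16 * c ^ 2 ≤ D) (hcase : B.u2 / D < 4 * c * B.u1) (l' : Ry) :
    (Cbx.mk 0 (max (B.u2 / D) r) (max (B.u2 / D) r) 0 0 l'.y l'.s l'.z).ok (1 / 8) r H ∧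
      (Cbx.mk 0 (max (B.u2 / D) r) (max (B.u2 / D) r) 0 0 l'.y l'.s l'.z).vol r H ≤ 4 * c ^ 7 * B.vol r H ∧
      ∀ l : Ry, (∀ k, |l.y k - l'.y k| ≤ B.u2 / D) → (∀ k, |l.s k - l'.s k| ≤ B.u2 / D) →
        |l.z + ∑ k, l.y k * (l.s k - l'.s k) - l'.z| ≤ max ((B.u2 / D) ^ 2) H →
        (Cbx.mk 0 (max (B.u2 / D) r) (max (B.u2 / D) r) 0 0 l'.y l'.s l'.z).In H l.y l.s l.z := by
  obtain ⟨hu1, hB1, hB2, hB3, hB4, hB5⟩ := hB
  have hc0 : 0 < c := by linarith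
  have hu2 : 0 < B.u2 := by
    rcases lt_or_ge 0 B.u2 with h | h
    · exact h
    · exact absurd (mul_nonpos_of_nonneg_of_nonpos hc0.le h) (by linarith)
  have hcc : c ≤ c ^ 2 := by nlinarith
  have hc2 : 1 ≤ c ^ 2 := one_le_pow₀ hc1
  have hD0 : 0 < D := by linarith
  have hD1 : 1 ≤ D := by linarith
  set u := max (B.u2 / D) r with hu
  have hu0 : 0 < u := lt_max_of_lt_right hr
  have hru2 : r ≤ c ^ 2 * B.u2 := by
    calc r ≤ c * B.u1 := hB1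
      _ ≤ c * (c * B.u2) := mul_le_mul_of_nonneg_left hB2 hc0.le
      _ = c ^ 2 * B.u2 := by ring
  have huB : u ≤ c ^ 2 * B.u2 := max_le ((div_le_self hu2.le hD1).trans (le_mul_of_one_le_left hu2.le hc2)) hru2
  have huu : u ≤ 4 * c * B.u1 := max_le hcase.le (by nlinarith)
  have huone : u ≤ 1 := max_le (by rw [div_le_one hD0]; linarith) hr1
  refine ⟨⟨le_max_right _ _, le_rfl, huone, ?_, ?_, ?_, ?_⟩, ?_, ?_⟩
  · show |(0 : ℝ)| * u ≤ 1 / 8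
    rw [abs_zero, zero_mul]; norm_num
  · show |(0 : ℝ)| * u ≤ 1 / 8
    rw [abs_zero, zero_mul]; norm_num
  · show |(0 : ℝ)| * H ≤ u
    rw [abs_zero, zero_mul]; exact hu0.le
  · show |(0 : ℝ)| * H ≤ u
    rw [abs_zero, zero_mul]; exact hu0.le
  · show u * u / r ^ 2 * max 1 (u ^ 2 / H) ≤ 4 * c ^ 7 * (B.u1 * B.u2 / r ^ 2 * max 1 (B.u2 ^ 2 / H))
    have h5 : u * u ≤ 4 * c ^ 3 * (B.u1 * B.u2) := by
      calc u * u ≤ (4 * c * B.u1) * (c ^ 2 * B.u2) := mul_le_mul huu huB hu0.le (by positivity)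
        _ = 4 * c ^ 3 * (B.u1 * B.u2) := by ring
    refine (vol_le' hH hr hu0.le hu1.le hu2.le (by positivity) hc2 h5 huB).trans (le_of_eq ?_)
    ring
  · intro l h1 h2 h3
    have hqu : B.u2 / D ≤ u := le_max_left _ _
    refine ⟨fun k => (h1 k).trans hqu, fun k => (h2 k).trans hqu, ?_, ?_, ?_⟩
    · refine h3.trans (max_le_max ?_ le_rfl)
      exact pow_le_pow_left₀ (by positivity) (le_max_left _ _) 2
    · show |fn 0 (l.y - l'.y) + 0 * (l.z + ∑ k, l.y k * (l.s k - l'.s k) - l'.z) - 0 * ∑ k, (l.y k - l'.y k) ^ 2| ≤ u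
      have e : fn 0 (l.y - l'.y) + 0 * (l.z + ∑ k, l.y k * (l.s k - l'.s k) - l'.z) - 0 * ∑ k, (l.y k - l'.y k) ^ 2 =
          l.y 1 - l'.y 1 := by
        simp [fn]
      rw [e]
      exact (h1 1).trans hqu
    · show |fn 0 (l.s - l'.s) + 0 * (∑ k, (l.s k - l'.s k) ^ 2) / 2 +
          2 * 0 * (l.z + ∑ k, l'.y k * (l.s k - l'.s k) - l'.z)| ≤ u
      have e : fn 0 (l.s - l'.s) + 0 * (∑ k, (l.s k - l'.s k) ^ 2) / 2 +
          2 * 0 * (l.z + ∑ k, l'.y k * (l.s k - l'.s k) - l'.z) = l.s 1 - l'.s 1 := by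
        simp [fn]
      rw [e]
      exact (h2 1).trans hqu

/-- the rays of a cell of the grid of a box of class `c` are in one box of the strict class -/
theorem cutc {c : ℝ} (hc1 : 1 ≤ c) {B : Cbx} {r H : ℝ} (hr : 0 < r) (hr1 : r ≤ 1) (hH : 0 < H) (hB : Bok c B r)
    (hα : |B.α| * H ≤ c * B.u1) (hκ : |B.κ| * H ≤ c * B.u1) {m D : ℕ} (hcm : c ≤ m) (hD : 16 * c ^ 2 ≤ D)
    {l' : Ry} (hin : Bin c B H l') :
    ∃ B' : Cbx, B'.ok (1 / 8) r H ∧ B'.vol r H ≤ 4 * c ^ 7 * B.vol r H ∧ ∀ l : Ry, Bin c B H l →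
      keyc B m D H l = keyc B m D H l' → B'.In H l.y l.s l.z := by
  have hc0 : 0 < c := by linarith
  have hu2 : 0 < B.u2 := by
    obtain ⟨hu1, hB1, hB2, -⟩ := hB
    rcases lt_or_ge 0 B.u2 with h | h
    · exact h
    · exact absurd (mul_nonpos_of_nonneg_of_nonpos hc0.le h) (by linarith)
  have hm0 : (0 : ℝ) < m := by linarith
  have hc2 : 1 ≤ c ^ 2 := one_le_pow₀ hc1
  have hD0 : (0 : ℝ) < D := by linarith
  have hD1 : (1 : ℝ) ≤ D := by linarith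
  have hq4 : B.u2 / (4 * m * D ^ 2) ≤ B.u2 / D := by
    apply div_le_div_of_nonneg_left hu2.le hD0
    have h1 : (1 : ℝ) ≤ m := by linarith
    have h2 : (D : ℝ) ≤ D ^ 2 := by nlinarith
    have h3 : 1 * (D : ℝ) ^ 2 ≤ 4 * m * D ^ 2 := mul_le_mul_of_nonneg_right (by linarith) (by positivity)
    linarith
  rcases le_or_gt (4 * c * B.u1) (B.u2 / D) with hcase | hcase
  · obtain ⟨L, θ', h1, h2, h3⟩ := cutc_slab hc1 hr hH hB hα hκ hD hcase hin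
    refine ⟨_, h1, h2, fun l hl hk => ?_⟩
    obtain ⟨c1, c2, c3⟩ := cell_dist hu2 hm0 hcm hc0 hD0 hin l hk
    exact h3 l hl (fun k => (c1 k).trans hq4) (fun k => (c2 k).trans hq4) (c3.trans (max_div_le hH hD1))
  · obtain ⟨h1, h2, h3⟩ := cutc_ball hc1 hr hr1 hH hB hD hcase l'
    refine ⟨_, h1, h2, fun l hl hk => ?_⟩
    obtain ⟨c1, c2, c3⟩ := cell_dist hu2 hm0 hcm hc0 hD0 hin l hk
    exact h3 l (fun k => (c1 k).trans hq4) (fun k => (c2 k).trans hq4) (c3.trans (max_div_le hH hD1))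

/-- **CONST, thick planks**: the rays of a box of class `c` are in `m(c)` boxes of the strict class, of volume `≤ C' vol` -/
theorem const_thick (c : ℝ) (hc : 1 ≤ c) : ∃ (m : ℕ) (C' : ℝ), 1 ≤ C' ∧ ∀ (B : Cbx) (r H : ℝ), 0 < r → r ≤ 1 → 0 < H →
    Bok c B r → |B.α| * H ≤ c * B.u1 → |B.κ| * H ≤ c * B.u1 → ∃ bx : Fin m → Cbx, ∀ l : Ry, Bin c B H l →
      ∃ j, (bx j).ok (1 / 8) r H ∧ (bx j).In H l.y l.s l.z ∧ (bx j).vol r H ≤ C' * B.vol r H := by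
  classical
  obtain ⟨m, hm⟩ := exists_nat_ge c
  obtain ⟨D, hD⟩ := exists_nat_ge (16 * c ^ 2)
  have hm0 : 0 < m := by
    have : (0 : ℝ) < m := by linarith
    exact_mod_cast this
  refine ⟨(keysc m D).card, 4 * c ^ 7, by nlinarith [one_le_pow₀ hc (n := 7)], ?_⟩
  intro B r H hr hr1 hH hB hα hκ
  have hu2 : 0 < B.u2 := by
    obtain ⟨hu1, hB1, hB2, -⟩ := hB
    rcases lt_or_ge 0 B.u2 with h | h
    · exact h
    · exact absurd (mul_nonpos_of_nonneg_of_nonpos (by linarith : 0 ≤ c) h) (by linarith)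
  have hex : ∀ k : (Fin 2 → ℤ) × (Fin 2 → ℤ) × ℤ, ∃ B' : Cbx, ∀ l : Ry, Bin c B H l → keyc B m D H l = k →
      B'.ok (1 / 8) r H ∧ B'.In H l.y l.s l.z ∧ B'.vol r H ≤ 4 * c ^ 7 * B.vol r H := by
    intro k
    by_cases h : ∃ l' : Ry, Bin c B H l' ∧ keyc B m D H l' = k
    · obtain ⟨l', hl', hk'⟩ := h
      obtain ⟨B', h1, h2, h3⟩ := cutc hc hr hr1 hH hB hα hκ hm hD hl'
      exact ⟨B', fun l hl hk => ⟨h1, h3 l hl (hk.trans hk'.symm), h2⟩⟩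
    · exact ⟨B, fun l hl hk => absurd ⟨l, hl, hk⟩ h⟩
  choose f hf using hex
  refine ⟨fun j => f ((keysc m D).equivFin.symm j).1, fun l hl => ?_⟩
  have hmem := keyc_mem (D := D) hm0 hm hu2 hl
  refine ⟨(keysc m D).equivFin ⟨_, hmem⟩, ?_⟩
  simp only [Equiv.symm_apply_apply]
  exact hf _ l hl rfl

/-- **CONST** for `H ≤ r²` -/
theorem const (c : ℝ) (hc : 1 ≤ c) : ∃ (m : ℕ) (C' : ℝ), 1 ≤ C' ∧ ∀ (B : Cbx) (r H : ℝ), 0 < r → r ≤ 1 → 0 < H → H ≤ r ^ 2 →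
    Bok c B r → ∃ bx : Fin m → Cbx, ∀ l : Ry, Bin c B H l →
      ∃ j, (bx j).ok (1 / 8) r H ∧ (bx j).In H l.y l.s l.z ∧ (bx j).vol r H ≤ C' * B.vol r H := by
  have hc4 : 1 ≤ c ^ 4 := one_le_pow₀ hc
  have hcc : c ≤ c ^ 4 := by
    have : c * 1 ≤ c * c ^ 3 := mul_le_mul_of_nonneg_left (one_le_pow₀ hc) (by linarith)
    nlinarith
  obtain ⟨m, C', h1, h2⟩ := const_thick (c ^ 4) hc4
  refine ⟨m, C', h1, fun B r H hr hr1 hH hHr hB => ?_⟩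
  obtain ⟨hu1, hB1, hB2, hB3, hB4, hB5⟩ := hB
  have hc0 : 0 < c := by linarith
  have hu2 : 0 < B.u2 := by
    rcases lt_or_ge 0 B.u2 with h | h
    · exact h
    · exact absurd (mul_nonpos_of_nonneg_of_nonpos hc0.le h) (by linarith)
  have hr2 : r ≤ c ^ 2 * B.u2 := by nlinarith
  have hthin : ∀ x : ℝ, |x| * B.u2 ≤ c → |x| * H ≤ c ^ 4 * B.u1 := by
    intro x hx
    calc |x| * H ≤ |x| * (r * r) := mul_le_mul_of_nonneg_left (by nlinarith) (abs_nonneg _)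
      _ ≤ |x| * ((c ^ 2 * B.u2) * (c * B.u1)) :=
        mul_le_mul_of_nonneg_left (mul_le_mul hr2 hB1 hr.le (by positivity)) (abs_nonneg _)
      _ = (|x| * B.u2) * (c ^ 3 * B.u1) := by ring
      _ ≤ c * (c ^ 3 * B.u1) := mul_le_mul_of_nonneg_right hx (by positivity)
      _ = c ^ 4 * B.u1 := by ring
  obtain ⟨bx, hbx⟩ := h2 B r H hr hr1 hH ⟨hu1, hB1.trans (mul_le_mul_of_nonneg_right hcc hu1.le),
    hB2.trans (mul_le_mul_of_nonneg_right hcc hu2.le), hB3.trans hcc, hB4.trans hcc, hB5.trans hcc⟩ (hthin _ hB4) (hthin _ hB5)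
  refine ⟨bx, fun l hl => hbx l ?_⟩
  obtain ⟨hy, hq, hz, hg0, hg1⟩ := hl
  exact ⟨fun k => (hy k).trans (mul_le_mul_of_nonneg_right hcc hu2.le), fun k => (hq k).trans (mul_le_mul_of_nonneg_right hcc hu2.le),
    hz.trans (mul_le_mul_of_nonneg_right hcc (le_max_of_le_left (by positivity))),
    hg0.trans (mul_le_mul_of_nonneg_right hcc hu1.le), hg1.trans (mul_le_mul_of_nonneg_right hcc hu1.le)⟩

end Vale.Agent.P106.W
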